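import Vale.Agent.Lib.P047C.Core

/-! The base step `j = 0` of the level-one bound (notes/P047C_blueprint.md). -/

open Finset

namespace Vale.Agent.Lib.P047C

variable {n : ℕ}

lemma E_flip (i : Fin n) (g : (Fin n → Bool) → ℝ) : E (fun x => g (flip i x)) = E g := by
  unfold E
  rw [sum_flip i g]

/-- The indicator of a sensitive edge. -/
noncomputable def Dd (h : (Fin n → Bool) → ℝ) (i : Fin n) (x : Fin n → Bool) : ℝ :=
  by classical exact if h x = h (flip i x) then 0 else 1

lemma Dd_nonneg (h : (Fin n → Bool) → ℝ) (i : Fin n) (x : Fin n → Bool) : 0 ≤ Dd h i x := by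
  classical
  unfold Dd
  split_ifs <;> norm_num

lemma Dd_flip (h : (Fin n → Bool) → ℝ) (i : Fin n) (x : Fin n → Bool) :
    Dd h i (flip i x) = Dd h i x := by
  classical
  unfold Dd
  rw [flip_flip]
  by_cases e : h x = h (flip i x)
  · rw [if_pos e, if_pos e.symm]
  · rw [if_neg e, if_neg (fun e' => e e'.symm)]

/-- The level-one coefficient is at most the influence. -/
lemma c1_le_E_Dd {h : (Fin n → Bool) → ℝ} (hbool : ∀ x, h x = 1 ∨ h x = -1) (i : Fin n) :
    c1 h i ≤ E (Dd h i) := by
  classical
  have h1 : c1 h i = E (fun x => h (flip i x) * sg (flip i x i)) :=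
    (E_flip i (fun x => h x * sg (x i))).symm
  have h2 : 2 * c1 h i = E (fun x => (h x - h (flip i x)) * sg (x i)) := by
    have h3 : (fun x => (h x - h (flip i x)) * sg (x i))
        = fun x => h x * sg (x i) + h (flip i x) * sg (flip i x i) := by
      funext x
      rw [flip_same, sg_not]
      ring
    rw [h3, E_add, ← h1]
    unfold c1
    ring
  have h4 : ∀ x, (h x - h (flip i x)) * sg (x i) ≤ 2 * Dd h i x := by
    intro x
    unfold Dd
    by_cases e : h x = h (flip i x)
    · rw [if_pos e, e]; simp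
    · rw [if_neg e]
      have h5 : |sg (x i)| = 1 := abs_sg _
      have h6 : |h x - h (flip i x)| = 2 := by
        rcases hbool x with a | a <;> rcases hbool (flip i x) with b | b
        · exact absurd (a.trans b.symm) e
        · rw [a, b]; norm_num
        · rw [a, b]; norm_num
        · exact absurd (a.trans b.symm) e
      calc (h x - h (flip i x)) * sg (x i) ≤ |(h x - h (flip i x)) * sg (x i)| := le_abs_self _
        _ = 2 * 1 := by rw [abs_mul, h5, h6]
  have h7 : E (fun x => (h x - h (flip i x)) * sg (x i)) ≤ 2 * E (Dd h i) := by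
    rw [← E_const_mul]
    exact E_mono h4
  linarith

/-- The influence is counted from one side of the cut. -/
lemma E_Dd_eq {h : (Fin n → Bool) → ℝ} (hbool : ∀ x, h x = 1 ∨ h x = -1) {v : ℝ} (i : Fin n) :
    E (Dd h i) = 2 * E (fun x => (1 + v * h x) / 2 * Dd h i x) := by
  classical
  have h1 : ∀ x, Dd h i x
      = (1 + v * h x) / 2 * Dd h i x + (1 + v * h (flip i x)) / 2 * Dd h i (flip i x) := by
    intro x
    rw [Dd_flip]
    unfold Dd
    by_cases e : h x = h (flip i x)
    · rw [if_pos e]; ring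
    · rw [if_neg e]
      have h2 : h x + h (flip i x) = 0 := by
        rcases hbool x with a | a <;> rcases hbool (flip i x) with b | b
        · exact absurd (a.trans b.symm) e
        · rw [a, b]; norm_num
        · rw [a, b]; norm_num
        · exact absurd (a.trans b.symm) e
      have h3 : (1 + v * h x) / 2 * 1 + (1 + v * h (flip i x)) / 2 * 1
          = 1 + v * (h x + h (flip i x)) / 2 := by ring
      rw [h3, h2]
      ring
  have h4 : E (Dd h i) = E (fun x => (1 + v * h x) / 2 * Dd h i x)
      + E (fun x => (1 + v * h (flip i x)) / 2 * Dd h i (flip i x)) := by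
    rw [← E_add]
    congr 1
    funext x
    exact h1 x
  rw [h4, E_flip i (fun x => (1 + v * h x) / 2 * Dd h i x)]
  ring

/-- A sensitive coordinate belongs to the certificate. -/
lemma sum_Dd_le {A : Finset (Fin n)} {h : (Fin n → Bool) → ℝ}
    {C : (Fin n → Bool) → Finset (Fin n)} (hS : Scheme A h C) (x : Fin n → Bool) :
    ∑ i, Dd h i x ≤ ((C x).card : ℝ) := by
  classical
  have h1 : ∀ i, Dd h i x ≤ if i ∈ C x then 1 else 0 := by
    intro i
    unfold Dd
    by_cases hi : i ∈ C x
    · rw [if_pos hi]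
      split_ifs <;> norm_num
    · rw [if_neg hi]
      have : h (flip i x) = h x := hS.cert x (flip i x) (fun j hj => by
        have hji : j ≠ i := fun e => hi (e ▸ hj)
        exact flip_ne hji x)
      rw [if_pos this.symm]
  calc ∑ i, Dd h i x ≤ ∑ i, (if i ∈ C x then (1:ℝ) else 0) := Finset.sum_le_sum (fun i _ => h1 i)
    _ = ((C x).card : ℝ) := by
      simp [Finset.sum_ite_mem]

/-- The base step for a fixed side of the cut. -/
lemma base_side {A : Finset (Fin n)} {h : (Fin n → Bool) → ℝ}
    {C : (Fin n → Bool) → Finset (Fin n)} (hS : Scheme A h C) (hbool : ∀ x, h x = 1 ∨ h x = -1)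
    {v μ : ℝ} (hv : v = 1 ∨ v = -1) (hμ : 0 < μ) :
    L1 h ≤ 2 * μ * E (fun x => (1 + v * h x) / 2) + UU C / (2 * μ) := by
  classical
  have hP : ∀ x, (1 + v * h x) / 2 = 0 ∨ (1 + v * h x) / 2 = 1 := by
    intro x
    rcases hv with e | e <;> rcases hbool x with a | a <;> simp [e, a]
  have h1 : L1 h ≤ E (fun x => 2 * ((1 + v * h x) / 2 * ∑ i, Dd h i x)) := by
    unfold L1
    have h2 : E (fun x => 2 * ((1 + v * h x) / 2 * ∑ i, Dd h i x))
        = ∑ i, E (Dd h i) := by
      have h3 : (fun x => 2 * ((1 + v * h x) / 2 * ∑ i, Dd h i x))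
          = fun x => ∑ i, 2 * ((1 + v * h x) / 2 * Dd h i x) := by
        funext x
        rw [Finset.mul_sum, Finset.mul_sum]
      rw [h3, E_sum]
      refine Finset.sum_congr rfl (fun i _ => ?_)
      rw [E_Dd_eq hbool (v := v) i, E_const_mul]
    rw [h2]
    exact Finset.sum_le_sum (fun i _ => c1_le_E_Dd hbool i)
  have h4 : ∀ x, 2 * ((1 + v * h x) / 2 * ∑ i, Dd h i x)
      ≤ 2 * μ * ((1 + v * h x) / 2) + ((C x).card : ℝ) ^ 2 / (2 * μ) := by
    intro x
    have hs := sum_Dd_le hS x
    rcases hP x with e | e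
    · rw [e]
      have : 0 ≤ ((C x).card : ℝ) ^ 2 / (2 * μ) := by positivity
      simpa using this
    · rw [e]
      have hc : (0:ℝ) ≤ ((C x).card : ℝ) := Nat.cast_nonneg _
      have h5 : 2 * ((C x).card : ℝ) ≤ 2 * μ + ((C x).card : ℝ) ^ 2 / (2 * μ) := by
        have h6 : 2 * μ + ((C x).card : ℝ) ^ 2 / (2 * μ) - 2 * ((C x).card : ℝ)
            = (((C x).card : ℝ) - 2 * μ) ^ 2 / (2 * μ) := by
          field_simp
          ring
        have h7 : 0 ≤ (((C x).card : ℝ) - 2 * μ) ^ 2 / (2 * μ) := by positivity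
        linarith
      linarith
  refine h1.trans ((E_mono h4).trans (le_of_eq ?_))
  rw [E_add, E_const_mul]
  congr 1
  unfold UU
  have : (fun x => ((C x).card : ℝ) ^ 2 / (2 * μ)) = fun x => ((C x).card : ℝ) ^ 2 * (1 / (2 * μ)) := by
    funext x
    ring
  rw [this, E_mul_const]
  ring

/-- The base step: `L ≤ μ V + U / (2 μ)`. -/
theorem base_step {A : Finset (Fin n)} {h : (Fin n → Bool) → ℝ}
    {C : (Fin n → Bool) → Finset (Fin n)} (hS : Scheme A h C) (hbool : ∀ x, h x = 1 ∨ h x = -1)
    {μ : ℝ} (hμ : 0 < μ) : L1 h ≤ μ * Vr h + UU C / (2 * μ) := by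
  have hE1 : E h ≤ 1 := by
    have := E_mono (f := h) (g := fun _ => 1) (fun x => by
      rcases hbool x with a | a <;> rw [a] <;> norm_num)
    rwa [E_const] at this
  have hE2 : -1 ≤ E h := by
    have := E_mono (f := fun _ => -1) (g := h) (fun x => by
      rcases hbool x with a | a <;> rw [a] <;> norm_num)
    rwa [E_const] at this
  -- the side of the cut with mass at most one half
  have hside : ∀ v : ℝ, (v = 1 ∨ v = -1) → v * E h ≤ 0 →
      2 * μ * E (fun x => (1 + v * h x) / 2) ≤ μ * Vr h := by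
    intro v hv hvE
    have h1 : E (fun x => (1 + v * h x) / 2) = (1 + v * E h) / 2 := by
      have : (fun x => (1 + v * h x) / 2) = fun x => (1 / 2) * (1 + v * h x) := by
        funext x; ring
      rw [this, E_const_mul, E_add, E_const_mul, E_const]
      ring
    rw [h1]
    have hv2 : v ^ 2 = 1 := by
      rcases hv with e | e <;> rw [e] <;> norm_num
    have h2 : Vr h = 1 - (v * E h) ^ 2 := by
      unfold Vr
      rw [mul_pow, hv2, one_mul]
    rw [h2]
    set t := v * E h with ht
    have ht1 : -1 ≤ t := by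
      rcases hv with e | e <;> rw [ht, e] <;> linarith
    have h3 : 2 * μ * ((1 + t) / 2) = μ * (1 + t) := by ring
    rw [h3]
    apply mul_le_mul_of_nonneg_left _ hμ.le
    nlinarith
  rcases le_total (E h) 0 with e | e
  · have h1 := base_side hS hbool (v := 1) (Or.inl rfl) hμ
    have h2 := hside 1 (Or.inl rfl) (by linarith)
    linarith
  · have h1 := base_side hS hbool (v := -1) (Or.inr rfl) hμ
    have h2 := hside (-1) (Or.inr rfl) (by linarith)
    linarith

end Vale.Agent.Lib.P047C
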