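import Vale.Agent.Lib.P047C.Core

/-!
Cross-intersection of certificates and the base inequality (notes/P047C_blueprint.md).
-/

open Finset

namespace Vale.Agent.Lib.P047C

variable {n : ℕ}

lemma E_mul_E (f g : (Fin n → Bool) → ℝ) :
    E (fun x => E (fun y => f x * g y)) = E f * E g := by
  have h1 : (fun x => E (fun y => f x * g y)) = fun x => f x * E g := by
    funext x; rw [E_const_mul]
  rw [h1, E_mul_const]

/-- Two certificates of different values meet. -/
lemma cert_meet {A : Finset (Fin n)} {h : (Fin n → Bool) → ℝ}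
    {C : (Fin n → Bool) → Finset (Fin n)} (hS : Scheme A h C) {x y : Fin n → Bool}
    (hxy : h x ≠ h y) : ∃ i, i ∈ C x ∧ i ∈ C y := by
  classical
  by_contra hcon
  push Not at hcon
  set t : Fin n → Bool := fun i => if i ∈ C x then x i else y i with ht
  have h1 : h t = h x := hS.cert x t fun i hi => by simp [ht, hi]
  have h2 : h t = h y := hS.cert y t fun i hi => by
    have : i ∉ C x := fun hx => hcon i hx hi
    simp [ht, this]
  exact hxy (h1.symm.trans h2)

/-- Cross-intersection: the variance is at most the sum of the squared frequencies. -/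
theorem vr_le_sum_gam_sq {A : Finset (Fin n)} {h : (Fin n → Bool) → ℝ}
    {C : (Fin n → Bool) → Finset (Fin n)} (hB : ∀ x, h x = 1 ∨ h x = -1) (hS : Scheme A h C) :
    Vr h ≤ ∑ i, (gam C i) ^ 2 := by
  classical
  set P : (Fin n → Bool) → ℝ := fun x => if h x = 1 then 1 else 0 with hP
  set Q : (Fin n → Bool) → ℝ := fun x => if h x = 1 then 0 else 1 with hQ
  set a : Fin n → (Fin n → Bool) → ℝ := fun i x => if i ∈ C x then 1 else 0 with ha
  have hP0 : ∀ x, 0 ≤ P x := fun x => by simp only [hP]; split_ifs <;> norm_num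
  have hQ0 : ∀ x, 0 ≤ Q x := fun x => by simp only [hQ]; split_ifs <;> norm_num
  have ha0 : ∀ i x, 0 ≤ a i x := fun i x => by simp only [ha]; split_ifs <;> norm_num
  have hPQ : ∀ x, P x + Q x = 1 := fun x => by simp only [hP, hQ]; split_ifs <;> norm_num
  have hhx : ∀ x, h x = P x - Q x := fun x => by
    simp only [hP, hQ]
    rcases hB x with h1 | h1
    · simp [h1]
    · have : (-1 : ℝ) ≠ 1 := by norm_num
      simp [h1, this]
  have hpq : E P + E Q = 1 := by
    rw [← E_add]; simp only [hPQ, E_const]
  have hEh : E h = E P - E Q := by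
    have : h = fun x => P x - Q x := funext hhx
    rw [this, E_sub]
  have hV : Vr h = 4 * (E P * E Q) := by
    unfold Vr
    rw [hEh]
    have : E Q = 1 - E P := by linarith
    rw [this]; ring
  have key : ∀ x y, P x * Q y ≤ ∑ i, (P x * a i x) * (Q y * a i y) := by
    intro x y
    by_cases h1 : h x = 1
    · by_cases h2 : h y = 1
      · have : Q y = 0 := by simp [hQ, h2]
        simp [this]
      · have hne : h x ≠ h y := by rw [h1]; exact fun e => h2 e.symm
        obtain ⟨i, hi1, hi2⟩ := cert_meet hS hne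
        have hPx : P x = 1 := by simp [hP, h1]
        have hQy : Q y = 1 := by simp [hQ, h2]
        have h3 : ∀ k ∈ (Finset.univ : Finset (Fin n)), 0 ≤ (P x * a k x) * (Q y * a k y) :=
          fun k _ => mul_nonneg (mul_nonneg (hP0 x) (ha0 k x)) (mul_nonneg (hQ0 y) (ha0 k y))
        have h4 := Finset.single_le_sum h3 (Finset.mem_univ i)
        have h5 : (P x * a i x) * (Q y * a i y) = 1 := by
          simp [ha, hi1, hi2, hPx, hQy]
        rw [h5] at h4
        calc P x * Q y = 1 := by rw [hPx, hQy]; norm_num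
          _ ≤ _ := h4
    · have : P x = 0 := by simp [hP, h1]
      simp [this]
  have h6 : E P * E Q ≤ ∑ i, E (fun x => P x * a i x) * E (fun y => Q y * a i y) := by
    rw [← E_mul_E]
    have h7 : ∑ i, E (fun x => P x * a i x) * E (fun y => Q y * a i y) =
        E (fun x => E (fun y => ∑ i, (P x * a i x) * (Q y * a i y))) := by
      have h71 : (fun x => E (fun y => ∑ i, (P x * a i x) * (Q y * a i y))) =
          fun x => ∑ i, E (fun y => (P x * a i x) * (Q y * a i y)) :=
        funext fun x => E_sum _ _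
      rw [h71, E_sum]
      refine Finset.sum_congr rfl fun i _ => ?_
      rw [E_mul_E]
    rw [h7]
    exact E_mono fun x => E_mono fun y => key x y
  have h8 : ∀ i, gam C i = E (fun x => P x * a i x) + E (fun y => Q y * a i y) := by
    intro i
    rw [← E_add]
    unfold gam
    congr 1
    funext x
    have := hPQ x
    simp only [ha]
    split_ifs <;> linarith
  rw [hV]
  have h9 : ∀ i, 4 * (E (fun x => P x * a i x) * E (fun y => Q y * a i y)) ≤ (gam C i) ^ 2 := by
    intro i
    rw [h8 i]
    nlinarith [sq_nonneg (E (fun x => P x * a i x) - E (fun y => Q y * a i y))]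
  calc 4 * (E P * E Q) ≤ 4 * ∑ i, E (fun x => P x * a i x) * E (fun y => Q y * a i y) := by linarith
    _ = ∑ i, 4 * (E (fun x => P x * a i x) * E (fun y => Q y * a i y)) := by rw [Finset.mul_sum]
    _ ≤ _ := Finset.sum_le_sum fun i _ => h9 i

/-- The base inequality. -/
theorem base_ineq {A : Finset (Fin n)} {h : (Fin n → Bool) → ℝ}
    {C : (Fin n → Bool) → Finset (Fin n)} (hB : ∀ x, h x = 1 ∨ h x = -1) (hS : Scheme A h C)
    {μ : ℝ} (hμ : 0 < μ) :
    L1 h ≤ μ * Vr h + UU C / (2 * μ) := by
  classical
  obtain ⟨v, hv, hvE⟩ : ∃ v : ℝ, (v = 1 ∨ v = -1) ∧ v * E h ≤ 0 := by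
    by_cases h0 : 0 ≤ E h
    · exact ⟨-1, Or.inr rfl, by linarith⟩
    · exact ⟨1, Or.inl rfl, by linarith⟩
  have hv2 : v * v = 1 := by rcases hv with rfl | rfl <;> norm_num
  set B : (Fin n → Bool) → ℝ := fun x => if h x = v then 1 else 0 with hBdef
  have hB01 : ∀ x, B x = 0 ∨ B x = 1 := fun x => by
    simp only [hBdef]; split_ifs <;> simp
  have hB0 : ∀ x, 0 ≤ B x := fun x => by rcases hB01 x with h1 | h1 <;> rw [h1] <;> norm_num
  have hB1 : ∀ x, B x ≤ 1 := fun x => by rcases hB01 x with h1 | h1 <;> rw [h1] <;> norm_num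
  have hhx : ∀ x, h x = v * (2 * B x - 1) := by
    intro x
    simp only [hBdef]
    rcases hB x with h1 | h1 <;> rcases hv with h2 | h2 <;> simp [h1, h2] <;> norm_num
  set p := E B with hp
  have hEh : E h = v * (2 * p - 1) := by
    have : h = fun x => v * (2 * B x - 1) := funext hhx
    rw [this, E_const_mul, E_sub, E_const_mul, E_const]
  have hp12 : 2 * p - 1 ≤ 0 := by
    have : v * E h = 2 * p - 1 := by rw [hEh, ← mul_assoc, hv2, one_mul]
    linarith
  have hp0 : 0 ≤ p := E_nonneg hB0
  have hVr : 2 * p ≤ Vr h := by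
    unfold Vr
    rw [hEh, mul_pow]
    have : v ^ 2 = 1 := by rw [sq]; exact hv2
    rw [this]
    nlinarith
  -- the coefficient
  have hc : ∀ i, c1 h i ≤ 2 * E (fun x => B x * (if i ∈ C x then 1 else 0)) := by
    intro i
    have h1 : c1 h i = 2 * v * E (fun x => B x * sg (x i)) := by
      unfold c1
      have : (fun x => h x * sg (x i)) = fun x => (2 * v) * (B x * sg (x i)) - v * sg (x i) := by
        funext x; rw [hhx x]; ring
      rw [this, E_sub, E_const_mul, E_const_mul, E_sg]; ring
    set B2 : (Fin n → Bool) → ℝ := fun x => B x * B (flip i x) with hB2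
    have h2 : E (fun x => B2 x * sg (x i)) = 0 := by
      unfold E
      rw [sum_invariant_mul_sg i B2 (fun x => by simp only [hB2, flip_flip]; ring)]
      simp
    have h3 : E (fun x => B x * sg (x i)) = E (fun x => (B x - B2 x) * sg (x i)) := by
      have : (fun x => (B x - B2 x) * sg (x i)) = fun x => B x * sg (x i) - B2 x * sg (x i) := by
        funext x; ring
      rw [this, E_sub, h2, sub_zero]
    have h4 : ∀ x, B x - B2 x ≤ B x * (if i ∈ C x then 1 else 0) := by
      intro x
      by_cases hi : i ∈ C x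
      · simp only [hi, if_true, mul_one, hB2]
        have := mul_nonneg (hB0 x) (hB0 (flip i x))
        linarith
      · simp only [hi, if_false, mul_zero, hB2]
        have hsame : h (flip i x) = h x := hS.cert x (flip i x) fun k hk => by
          have : k ≠ i := fun e => hi (e ▸ hk)
          exact flip_ne this x
        have : B (flip i x) = B x := by simp only [hBdef, hsame]
        rw [this]
        rcases hB01 x with h5 | h5 <;> rw [h5] <;> norm_num
    have h40 : ∀ x, 0 ≤ B x - B2 x := by
      intro x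
      simp only [hB2]
      have := hB1 (flip i x)
      nlinarith [hB0 x]
    have h5 : ∀ x, (2 * v) * ((B x - B2 x) * sg (x i)) ≤
        2 * (B x * (if i ∈ C x then 1 else 0)) := by
      intro x
      have h6 : (v * sg (x i)) ≤ 1 := by
        rcases hv with rfl | rfl
        · simpa using sg_le_one _
        · cases x i <;> simp [sg] <;> norm_num
      have h7 : (B x - B2 x) * (v * sg (x i)) ≤ (B x - B2 x) * 1 :=
        mul_le_mul_of_nonneg_left h6 (h40 x)
      have h8 := h4 x
      nlinarith
    rw [h1, h3, mul_comm (2 * v), mul_comm _ (2 * v), ← E_const_mul]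
    calc E (fun x => (2 * v) * ((B x - B2 x) * sg (x i)))
        ≤ E (fun x => 2 * (B x * (if i ∈ C x then 1 else 0))) := E_mono h5
      _ = _ := by rw [E_const_mul]
  -- the sum
  have hsum : L1 h ≤ 2 * E (fun x => B x * ((C x).card : ℝ)) := by
    unfold L1
    calc ∑ i, c1 h i ≤ ∑ i, 2 * E (fun x => B x * (if i ∈ C x then 1 else 0)) :=
          Finset.sum_le_sum fun i _ => hc i
      _ = 2 * E (fun x => B x * ((C x).card : ℝ)) := by
          rw [← Finset.mul_sum, ← E_sum]
          congr 2
          funext x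
          rw [← Finset.mul_sum]
          congr 1
          rw [Finset.sum_boole]
          simp
  have hpt : ∀ x, 2 * (B x * ((C x).card : ℝ)) ≤
      2 * μ * B x + ((C x).card : ℝ) ^ 2 / (2 * μ) := by
    intro x
    have hc0 : (0 : ℝ) ≤ (C x).card := Nat.cast_nonneg _
    have h2μ : 0 < 2 * μ := by linarith
    have hq : 0 ≤ ((C x).card : ℝ) ^ 2 / (2 * μ) := div_nonneg (sq_nonneg _) h2μ.le
    have hAM : 2 * ((C x).card : ℝ) ≤ 2 * μ + ((C x).card : ℝ) ^ 2 / (2 * μ) := by
      have h1 : 0 ≤ (((C x).card : ℝ) - 2 * μ) ^ 2 / (2 * μ) := div_nonneg (sq_nonneg _) h2μ.le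
      have h2 : (((C x).card : ℝ) - 2 * μ) ^ 2 / (2 * μ) =
          ((C x).card : ℝ) ^ 2 / (2 * μ) - 2 * ((C x).card : ℝ) + 2 * μ := by
        field_simp; ring
      linarith
    rcases hB01 x with h5 | h5
    · rw [h5]; simpa using hq
    · rw [h5]; simpa using hAM
  have hE : 2 * E (fun x => B x * ((C x).card : ℝ)) ≤ 2 * μ * p + UU C / (2 * μ) := by
    rw [← E_const_mul, hp, ← E_const_mul]
    unfold UU
    have h9 : E (fun x => ((C x).card : ℝ) ^ 2) / (2 * μ) =
        E (fun x => ((C x).card : ℝ) ^ 2 / (2 * μ)) := by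
      simp only [div_eq_mul_inv]
      rw [E_mul_const]
    rw [h9, ← E_add]
    exact E_mono hpt
  nlinarith

end Vale.Agent.Lib.P047C
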