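import Mathlib
import Vale.Agent.Lib.P047h.Defs
import Vale.Agent.Lib.P047h.Biased

/-!
Monotone Boolean functions: the certificate complexity is at most the degree.

Let `f` be monotone with values `1, -1` and Fourier degree at most `d`.  If `f x = 1`, take a
minimal set `M` of true coordinates of `x` such that `f` is `1` at the indicator point of `M`;
if `f x = -1`, take a minimal set `M` of false coordinates of `x` such that `f` is `-1` at the
co-indicator of `M`.  In both cases the alternating sum of `f` over the flips of a base point
on subsets of `M` equals `2` up to sign, while it vanishes when `d < M.card` since each character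
of degree at most `d` misses a coordinate of `M`.
-/

namespace Vale.Agent.Lib.P047C

open Vale.Agent.Lib.P047h
open Finset

variable {n : ℕ}

/-- The point `z` flipped on `T`. -/
def flipOn (z : Fin n → Bool) (T : Finset (Fin n)) : Fin n → Bool :=
  fun i => if i ∈ T then !(z i) else z i

/-- Alternating sum over the flips of `z` on subsets of `M`. -/
noncomputable def altSum (z : Fin n → Bool) (M : Finset (Fin n)) (g : (Fin n → Bool) → ℝ) : ℝ :=
  ∑ T ∈ M.powerset, (-1 : ℝ) ^ T.card * g (flipOn z T)

lemma altSum_chi_eq_zero (z : Fin n → Bool) (M S : Finset (Fin n)) (h : ¬ M ⊆ S) :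
    altSum z M (chi S) = 0 := by
  classical
  obtain ⟨i, hiM, hiS⟩ := Finset.not_subset.mp h
  unfold altSum
  have hchi : ∀ T : Finset (Fin n), chi S (flipOn z (T.erase i)) = chi S (flipOn z T) := by
    intro T
    unfold chi
    apply Finset.prod_congr rfl
    intro j hj
    have hji : j ≠ i := fun e => hiS (e ▸ hj)
    simp [flipOn, Finset.mem_erase, hji]
  -- split the powerset at `i`
  have hsplit : M = insert i (M.erase i) := (Finset.insert_erase hiM).symm
  rw [hsplit, Finset.sum_powerset_insert (Finset.notMem_erase i M)]
  have : ∀ T ∈ (M.erase i).powerset,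
      (-1 : ℝ) ^ (insert i T).card * chi S (flipOn z (insert i T)) =
        - ((-1 : ℝ) ^ T.card * chi S (flipOn z T)) := by
    intro T hT
    have hiT : i ∉ T := fun hi => by
      have := Finset.mem_powerset.mp hT hi
      simp at this
    rw [Finset.card_insert_of_notMem hiT, ← hchi (insert i T), Finset.erase_insert hiT, pow_succ]
    ring
  rw [Finset.sum_congr rfl this, Finset.sum_neg_distrib]
  ring

lemma altSum_eq_zero (f : (Fin n → Bool) → ℝ) {d : ℕ}
    (hdeg : ∀ S : Finset (Fin n), d < S.card → fourierCoeff f S = 0)
    (z : Fin n → Bool) (M : Finset (Fin n)) (hM : d < M.card) :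
    altSum z M f = 0 := by
  classical
  have hf : ∀ x, f x = ∑ S : Finset (Fin n), fourierCoeff f S * chi S x :=
    fun x => fourier_inversion f x
  have h1 : altSum z M f = ∑ S : Finset (Fin n), fourierCoeff f S * altSum z M (chi S) := by
    unfold altSum
    simp_rw [hf, Finset.mul_sum]
    rw [Finset.sum_comm]
    apply Finset.sum_congr rfl
    intro S _
    apply Finset.sum_congr rfl
    intro T _
    ring
  rw [h1]
  apply Finset.sum_eq_zero
  intro S _
  by_cases hS : d < S.card
  · rw [hdeg S hS, zero_mul]
  · have hsub : ¬ M ⊆ S := fun hsub => hS (lt_of_lt_of_le hM (Finset.card_le_card hsub))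
    rw [altSum_chi_eq_zero z M S hsub, mul_zero]

/-- If `f` takes the value `c ≠ 0` on all proper flips of `z` within `M` and the value `-c` on
the full flip, then the degree is at least the size of `M`. -/
lemma card_le_of_alt (f : (Fin n → Bool) → ℝ) {d : ℕ}
    (hdeg : ∀ S : Finset (Fin n), d < S.card → fourierCoeff f S = 0)
    (z : Fin n → Bool) (M : Finset (Fin n)) (c : ℝ) (hc : c ≠ 0)
    (h1 : ∀ T, T ⊂ M → f (flipOn z T) = c) (h2 : f (flipOn z M) = -c) :
    M.card ≤ d := by
  classical
  by_contra hlt
  push Not at hlt
  have h0 := altSum_eq_zero f hdeg z M hlt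
  have hne : M.Nonempty := by
    rw [← Finset.card_pos]
    omega
  have hsum : ∑ T ∈ M.powerset, (-1 : ℝ) ^ T.card = 0 := by
    have := Finset.sum_powerset_neg_one_pow_card_of_nonempty hne
    exact_mod_cast this
  have hval : altSum z M f =
      ∑ T ∈ M.powerset, ((-1 : ℝ) ^ T.card * c + (if T = M then (-1 : ℝ) ^ T.card * (-2 * c) else 0)) := by
    unfold altSum
    apply Finset.sum_congr rfl
    intro T hT
    by_cases hTM : T = M
    · subst hTM
      rw [h2, if_pos rfl]
      ring
    · have hss : T ⊂ M := Finset.ssubset_iff_subset_ne.mpr ⟨Finset.mem_powerset.mp hT, hTM⟩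
      rw [h1 T hss, if_neg hTM]
      ring
  rw [hval, Finset.sum_add_distrib, ← Finset.sum_mul, hsum, zero_mul, zero_add,
    Finset.sum_ite_eq' M.powerset M] at h0
  rw [if_pos (Finset.mem_powerset.mpr (Finset.Subset.refl M))] at h0
  have hp : (-1 : ℝ) ^ M.card ≠ 0 := pow_ne_zero _ (by norm_num)
  have : (-2 * c) ≠ 0 := mul_ne_zero (by norm_num) hc
  exact (mul_ne_zero hp this) h0

/-- **Monotone Boolean functions: certificate complexity at most the degree.** -/
theorem mono_cert (f : (Fin n → Bool) → ℝ) (hbool : ∀ x, f x = 1 ∨ f x = -1)
    (hmono : Monotone f) {d : ℕ}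
    (hdeg : ∀ S : Finset (Fin n), d < S.card → fourierCoeff f S = 0)
    (x : Fin n → Bool) :
    ∃ S : Finset (Fin n), S.card ≤ d ∧ ∀ y : Fin n → Bool, (∀ i ∈ S, y i = x i) → f y = f x := by
  classical
  rcases hbool x with hx | hx
  · -- `f x = 1`: minimal set of true coordinates
    set zF : Fin n → Bool := fun _ => false with hzF
    let A : Finset (Fin n) := Finset.univ.filter (fun i => x i = true)
    have hpt : flipOn zF A = x := by
      funext i
      by_cases hi : x i = true
      · simp [flipOn, hzF, A, hi]
      · simp [flipOn, hzF, A, hi]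
    let 𝓕 : Finset (Finset (Fin n)) := A.powerset.filter (fun T => f (flipOn zF T) = 1)
    have hne : 𝓕.Nonempty := ⟨A, by simp [𝓕, hpt, hx]⟩
    obtain ⟨M, hM, hmin⟩ := Finset.exists_min_image 𝓕 Finset.card hne
    have hMmem := Finset.mem_filter.mp hM
    have hMA : M ⊆ A := Finset.mem_powerset.mp hMmem.1
    have hMf : f (flipOn zF M) = 1 := hMmem.2
    refine ⟨M, ?_, ?_⟩
    · apply card_le_of_alt f hdeg zF M (-1) (by norm_num)
      · intro T hT
        rcases hbool (flipOn zF T) with h | h
        · exfalso
          have hTmem : T ∈ 𝓕 := Finset.mem_filter.mpr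
            ⟨Finset.mem_powerset.mpr (hT.1.trans hMA), h⟩
          have := hmin T hTmem
          have h2 := Finset.card_lt_card hT
          omega
        · exact h
      · rw [hMf]; norm_num
    · intro y hy
      have hle : flipOn zF M ≤ y := by
        intro i
        by_cases hi : i ∈ M
        · have hxi : x i = true := by
            have := hMA hi
            simpa [A] using this
          have hyi : y i = true := by rw [hy i hi, hxi]
          simp [flipOn, hi, hzF, hyi]
        · simp [flipOn, hi, hzF]
      have h1 : (1 : ℝ) ≤ f y := hMf ▸ hmono hle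
      rcases hbool y with h | h
      · rw [h, hx]
      · rw [h] at h1; norm_num at h1
  · -- `f x = -1`: minimal set of false coordinates
    set zT : Fin n → Bool := fun _ => true with hzT
    let A : Finset (Fin n) := Finset.univ.filter (fun i => x i = false)
    have hpt : flipOn zT A = x := by
      funext i
      by_cases hi : x i = false
      · simp [flipOn, hzT, A, hi]
      · have : x i = true := by simpa using hi
        simp [flipOn, hzT, A, this]
    let 𝓕 : Finset (Finset (Fin n)) := A.powerset.filter (fun T => f (flipOn zT T) = -1)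
    have hne : 𝓕.Nonempty := ⟨A, by simp [𝓕, hpt, hx]⟩
    obtain ⟨M, hM, hmin⟩ := Finset.exists_min_image 𝓕 Finset.card hne
    have hMmem := Finset.mem_filter.mp hM
    have hMA : M ⊆ A := Finset.mem_powerset.mp hMmem.1
    have hMf : f (flipOn zT M) = -1 := hMmem.2
    refine ⟨M, ?_, ?_⟩
    · apply card_le_of_alt f hdeg zT M 1 (by norm_num)
      · intro T hT
        rcases hbool (flipOn zT T) with h | h
        · exact h
        · exfalso
          have hTmem : T ∈ 𝓕 := Finset.mem_filter.mpr
            ⟨Finset.mem_powerset.mpr (hT.1.trans hMA), h⟩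
          have := hmin T hTmem
          have h2 := Finset.card_lt_card hT
          omega
      · exact hMf
    · intro y hy
      have hle : y ≤ flipOn zT M := by
        intro i
        by_cases hi : i ∈ M
        · have hxi : x i = false := by
            have := hMA hi
            simpa [A] using this
          have hyi : y i = false := by rw [hy i hi, hxi]
          simp [flipOn, hi, hzT, hyi]
        · simp [flipOn, hi, hzT]
      have h1 : f y ≤ -1 := hMf ▸ hmono hle
      rcases hbool y with h | h
      · rw [h] at h1; norm_num at h1
      · rw [h, hx]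

end Vale.Agent.Lib.P047C
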