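import Vale.Agent.Lib.P047C.RandF
import Vale.Agent.Lib.P047C.Cross
import Vale.Agent.Lib.P047C.MonoCert

/-!
Bootstrapping the level-one bound: the budget is split by the value of the function, so that the
bound becomes homogeneous in the variance and can be iterated.  This removes the double
logarithm in `notes/P047C_blueprint.md`.
-/

open Finset

namespace Vale.Agent.Lib.P047C.Boot

open Vale.Agent.Lib.P047C

variable {n : ℕ}

/-! ### Cauchy-Schwarz for the average -/

lemma E_sqrt_mul_le {A B : (Fin n → Bool) → ℝ} (hA : ∀ x, 0 ≤ A x) (hB : ∀ x, 0 ≤ B x) :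
    E (fun x => √(A x) * √(B x)) ≤ √(E A) * √(E B) := by
  have h1 := Real.sum_sqrt_mul_sqrt_le (Finset.univ : Finset (Fin n → Bool)) hA hB
  have hN : (0 : ℝ) < 2 ^ n := by positivity
  have hS : (0 : ℝ) ≤ √(2 ^ n) := Real.sqrt_nonneg _
  have hSS : √((2 : ℝ) ^ n) * √(2 ^ n) = 2 ^ n := Real.mul_self_sqrt hN.le
  unfold E
  rw [Real.sqrt_div (Finset.sum_nonneg fun i _ => hA i),
    Real.sqrt_div (Finset.sum_nonneg fun i _ => hB i), div_mul_div_comm, hSS]
  exact div_le_div_of_nonneg_right h1 hN.le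

lemma E_sqrt_le {A : (Fin n → Bool) → ℝ} (hA : ∀ x, 0 ≤ A x) :
    E (fun x => √(A x)) ≤ √(E A) := by
  have h1 := E_sqrt_mul_le (A := A) (B := fun _ => 1) hA (fun _ => zero_le_one)
  simpa [E_const] using h1

lemma E_psi_le {A B : (Fin n → Bool) → ℝ} (hA : ∀ x, 0 ≤ A x) (hB : ∀ x, 0 ≤ B x) :
    E (fun x => √(√(A x) * B x)) ≤ √(√(E A) * E B) := by
  have h1 : (fun x => √(√(A x) * B x)) = fun x => √(√(A x)) * √(B x) := by
    funext x; rw [Real.sqrt_mul (Real.sqrt_nonneg _)]
  rw [h1, Real.sqrt_mul (Real.sqrt_nonneg _)]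
  have h2 := E_sqrt_mul_le (A := fun x => √(A x)) (B := B) (fun x => Real.sqrt_nonneg _) hB
  refine h2.trans ?_
  refine mul_le_mul_of_nonneg_right ?_ (Real.sqrt_nonneg _)
  exact Real.sqrt_le_sqrt (E_sqrt_le hA)

lemma psi_mono {a b a' b' : ℝ} (ha : 0 ≤ a) (hb : 0 ≤ b) (haa : a ≤ a') (hbb : b ≤ b') :
    √(√a * b) ≤ √(√a' * b') := by
  refine Real.sqrt_le_sqrt ?_
  exact mul_le_mul (Real.sqrt_le_sqrt haa) hbb hb (Real.sqrt_nonneg _)

/-! ### The split budget -/

/-- The weight of a value: `l` on the value `1` and `1 / l` on the value `-1`. -/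
noncomputable def wt (l v : ℝ) : ℝ := l * ((1 + v) / 2) + ((1 - v) / 2) / l

lemma wt_nonneg {l v : ℝ} (hl : 0 < l) (hv : v = 1 ∨ v = -1) : 0 ≤ wt l v := by
  unfold wt
  rcases hv with rfl | rfl
  · norm_num; exact hl.le
  · norm_num; exact hl.le

/-- The split budget. -/
noncomputable def KL (l : ℝ) (h : (Fin n → Bool) → ℝ) (C : (Fin n → Bool) → Finset (Fin n)) : ℝ :=
  E (fun x => wt l (h x) * ((C x).card : ℝ))

/-- The split frequency of a coordinate. -/
noncomputable def gL (l : ℝ) (h : (Fin n → Bool) → ℝ) (C : (Fin n → Bool) → Finset (Fin n))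
    (i : Fin n) : ℝ := E (fun x => wt l (h x) * (if i ∈ C x then 1 else 0))

lemma KL_nonneg {l : ℝ} (hl : 0 < l) {h : (Fin n → Bool) → ℝ}
    (hbool : ∀ x, h x = 1 ∨ h x = -1) (C : (Fin n → Bool) → Finset (Fin n)) : 0 ≤ KL l h C :=
  E_nonneg fun x => mul_nonneg (wt_nonneg hl (hbool x)) (Nat.cast_nonneg _)

lemma gL_nonneg {l : ℝ} (hl : 0 < l) {h : (Fin n → Bool) → ℝ}
    (hbool : ∀ x, h x = 1 ∨ h x = -1) (C : (Fin n → Bool) → Finset (Fin n)) (i : Fin n) :
    0 ≤ gL l h C i :=
  E_nonneg fun x => mul_nonneg (wt_nonneg hl (hbool x)) (by split_ifs <;> norm_num)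

lemma card_sdiff_singleton_real' (S : Finset (Fin n)) (i : Fin n) :
    ((S \ {i}).card : ℝ) = (S.card : ℝ) - (if i ∈ S then 1 else 0) := by
  classical
  by_cases h : i ∈ S
  · rw [if_pos h, Finset.sdiff_singleton_eq_erase, Finset.card_erase_of_mem h]
    have : 1 ≤ S.card := Finset.card_pos.2 ⟨i, h⟩
    push_cast [Nat.cast_sub this]
    ring
  · rw [if_neg h, Finset.sdiff_singleton_eq_erase, Finset.erase_eq_of_notMem h]
    simp

lemma E_KL_res (l : ℝ) (h : (Fin n → Bool) → ℝ) (C : (Fin n → Bool) → Finset (Fin n))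
    (F : Finset (Fin n)) :
    E (fun z => KL l (res F z h) (resC F z C)) = E (fun x => wt l (h x) * ((C x \ F).card : ℝ)) :=
  E_E_ovr F (fun y => wt l (h y) * ((C y \ F).card : ℝ))

lemma E_KL_single (l : ℝ) (h : (Fin n → Bool) → ℝ) (C : (Fin n → Bool) → Finset (Fin n))
    (i : Fin n) :
    E (fun z => KL l (res {i} z h) (resC {i} z C)) = KL l h C - gL l h C i := by
  rw [E_KL_res]
  have : (fun x => wt l (h x) * ((C x \ {i}).card : ℝ)) = fun x =>
      wt l (h x) * ((C x).card : ℝ) - wt l (h x) * (if i ∈ C x then 1 else 0) := by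
    funext x
    rw [card_sdiff_singleton_real']
    ring
  rw [this, E_sub]
  rfl

lemma E_E_KL (l : ℝ) (h : (Fin n → Bool) → ℝ) (C : (Fin n → Bool) → Finset (Fin n)) :
    E (fun w => E (fun z => KL l (res (fset w) z h) (resC (fset w) z C))) = KL l h C / 2 := by
  simp only [E_KL_res]
  rw [E_E_comm]
  have : (fun x => E (fun w => wt l (h x) * ((C x \ fset w).card : ℝ))) =
      fun x => (wt l (h x) * ((C x).card : ℝ)) * (1 / 2) := by
    funext x
    rw [E_const_mul, E_card_sdiff_fset]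
    ring
  rw [this, E_mul_const]
  unfold KL
  ring

/-! ### The homogeneous quantity -/

/-- `V ^ (1 / 4) * (U + e K) ^ (1 / 2)`. -/
noncomputable def Psi (e : ℝ) (h : (Fin n → Bool) → ℝ) (C : (Fin n → Bool) → Finset (Fin n)) : ℝ :=
  √(√(Vr h) * (UU C + e * KK C))

lemma Psi_nonneg (e : ℝ) (h : (Fin n → Bool) → ℝ) (C : (Fin n → Bool) → Finset (Fin n)) :
    0 ≤ Psi e h C := Real.sqrt_nonneg _

lemma Vr_nonneg {h : (Fin n → Bool) → ℝ} (hbool : ∀ x, h x = 1 ∨ h x = -1) : 0 ≤ Vr h := by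
  have h1 := bessel (∅ : Finset (Fin n)) h
  have h2 : (fun x => h x ^ 2) = fun _ => (1 : ℝ) := by
    funext x
    rcases hbool x with h3 | h3 <;> rw [h3] <;> norm_num
  rw [h2, E_const] at h1
  simp only [Finset.sum_empty, add_zero] at h1
  unfold Vr
  linarith

lemma Vr_le_one (h : (Fin n → Bool) → ℝ) : Vr h ≤ 1 := by
  unfold Vr
  nlinarith [sq_nonneg (E h)]

lemma KK_nonneg' (C : (Fin n → Bool) → Finset (Fin n)) : 0 ≤ KK C :=
  E_nonneg fun x => by positivity

lemma UU_nonneg' (C : (Fin n → Bool) → Finset (Fin n)) : 0 ≤ UU C :=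
  E_nonneg fun x => by positivity

lemma WW_nonneg {e : ℝ} (he : 0 ≤ e) (C : (Fin n → Bool) → Finset (Fin n)) :
    0 ≤ UU C + e * KK C :=
  add_nonneg (UU_nonneg' C) (mul_nonneg he (KK_nonneg' C))

lemma E_Vr_single_le (h : (Fin n → Bool) → ℝ) (i : Fin n) :
    E (fun z => Vr (res {i} z h)) ≤ Vr h := by
  have := E_Vr_res ({i} : Finset (Fin n)) h
  simp only [Finset.sum_singleton] at this
  nlinarith [sq_nonneg (c1 h i)]

lemma E_KK_single_le (C : (Fin n → Bool) → Finset (Fin n)) (i : Fin n) :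
    E (fun z => KK (resC {i} z C)) ≤ KK C := by
  rw [E_KK_res]
  refine E_mono fun x => ?_
  exact_mod_cast Finset.card_le_card Finset.sdiff_subset

lemma E_UU_single_le (C : (Fin n → Bool) → Finset (Fin n)) (i : Fin n) :
    E (fun z => UU (resC {i} z C)) ≤ UU C := by
  rw [E_UU_res]
  refine E_mono fun x => ?_
  have h1 : ((C x \ {i}).card : ℝ) ≤ ((C x).card : ℝ) := by
    exact_mod_cast Finset.card_le_card Finset.sdiff_subset
  have h0 : (0 : ℝ) ≤ ((C x \ {i}).card : ℝ) := by positivity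
  nlinarith

lemma E_L1_single (h : (Fin n → Bool) → ℝ) (i : Fin n) :
    E (fun z => L1 (res {i} z h)) = L1 h - c1 h i := by
  classical
  rw [E_L1_res]
  unfold L1
  rw [← Finset.sum_sdiff (Finset.subset_univ ({i} : Finset (Fin n)))]
  simp

lemma E_Psi_single {e : ℝ} (he : 0 ≤ e) {h : (Fin n → Bool) → ℝ}
    (hbool : ∀ x, h x = 1 ∨ h x = -1) (C : (Fin n → Bool) → Finset (Fin n)) (i : Fin n) :
    E (fun z => Psi e (res {i} z h) (resC {i} z C)) ≤ Psi e h C := by
  have h1 := E_psi_le (A := fun z => Vr (res {i} z h))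
    (B := fun z => UU (resC {i} z C) + e * KK (resC {i} z C))
    (fun z => Vr_nonneg fun x => hbool _) (fun z => WW_nonneg he _)
  refine h1.trans ?_
  refine psi_mono (E_nonneg fun z => Vr_nonneg fun x => hbool _)
    (E_nonneg fun z => WW_nonneg he _) (E_Vr_single_le h i) ?_
  rw [E_add, E_const_mul]
  have h2 := E_UU_single_le C i
  have h3 := mul_le_mul_of_nonneg_left (E_KK_single_le C i) he
  linarith

lemma E_E_Psi {e θ : ℝ} (he : 0 ≤ e) {h : (Fin n → Bool) → ℝ} (hω : 0 ≤ 1 - θ ^ 2 / 2)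
    (hbool : ∀ x, h x = 1 ∨ h x = -1) (C : (Fin n → Bool) → Finset (Fin n))
    (hW : θ ^ 2 * Vr h ≤ ∑ i, (c1 h i) ^ 2) :
    E (fun w => E (fun z => Psi e (res (fset w) z h) (resC (fset w) z C))) ≤
      (1 / 2) * √(√(1 - θ ^ 2 / 2)) * Psi (2 * e + 1) h C := by
  set ω : ℝ := 1 - θ ^ 2 / 2 with hωdef
  have hA : ∀ w z : Fin n → Bool, 0 ≤ Vr (res (fset w) z h) := fun w z => Vr_nonneg fun x => hbool _
  have hB : ∀ w z : Fin n → Bool,
      0 ≤ UU (resC (fset w) z C) + e * KK (resC (fset w) z C) := fun w z => WW_nonneg he _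
  have h1 : ∀ w : Fin n → Bool, E (fun z => Psi e (res (fset w) z h) (resC (fset w) z C)) ≤
      √(√(E (fun z => Vr (res (fset w) z h))) *
        E (fun z => UU (resC (fset w) z C) + e * KK (resC (fset w) z C))) :=
    fun w => E_psi_le (hA w) (hB w)
  have h2 := E_psi_le (A := fun w => E (fun z => Vr (res (fset w) z h)))
    (B := fun w => E (fun z => UU (resC (fset w) z C) + e * KK (resC (fset w) z C)))
    (fun w => E_nonneg (hA w)) (fun w => E_nonneg (hB w))
  have h3 := (E_mono h1).trans h2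
  refine h3.trans ?_
  have h4 : E (fun w => E (fun z => Vr (res (fset w) z h))) ≤ ω * Vr h := by
    have := E_E_Vr h
    rw [hωdef]
    nlinarith
  have h5 : E (fun w => E (fun z => UU (resC (fset w) z C) + e * KK (resC (fset w) z C))) =
      (UU C + (2 * e + 1) * KK C) / 4 := by
    have e1 : ∀ w : Fin n → Bool,
        E (fun z => UU (resC (fset w) z C) + e * KK (resC (fset w) z C)) =
        E (fun z => UU (resC (fset w) z C)) + e * E (fun z => KK (resC (fset w) z C)) := fun w => by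
      rw [E_add, E_const_mul]
    simp only [e1]
    rw [E_add, E_const_mul, E_E_UU, E_E_KK]
    ring
  rw [h5]
  have hV0 : 0 ≤ Vr h := Vr_nonneg hbool
  have hW0 : 0 ≤ UU C + (2 * e + 1) * KK C := WW_nonneg (by linarith) C
  have h6 := psi_mono (a := E (fun w => E (fun z => Vr (res (fset w) z h))))
    (b := (UU C + (2 * e + 1) * KK C) / 4) (a' := ω * Vr h)
    (b' := (UU C + (2 * e + 1) * KK C) / 4)
    (E_nonneg fun w => E_nonneg (hA w)) (by positivity) h4 le_rfl
  refine h6.trans (le_of_eq ?_)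
  unfold Psi
  set W : ℝ := UU C + (2 * e + 1) * KK C with hWdef
  rw [Real.sqrt_mul hω]
  have h7 : √ω * √(Vr h) * (W / 4) = √ω * ((√(Vr h) * W) * (1 / 2) ^ 2) := by ring
  rw [h7, Real.sqrt_mul (Real.sqrt_nonneg _),
    Real.sqrt_mul (mul_nonneg (Real.sqrt_nonneg _) hW0),
    Real.sqrt_sq (by norm_num : (0 : ℝ) ≤ 1 / 2)]
  ring

/-! ### Cross-intersection with split frequencies -/

theorem vr_le_sum_gL_sq {A : Finset (Fin n)} {h : (Fin n → Bool) → ℝ}
    {C : (Fin n → Bool) → Finset (Fin n)} (hB : ∀ x, h x = 1 ∨ h x = -1) (hS : Scheme A h C)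
    {l : ℝ} (hl : 0 < l) :
    Vr h ≤ ∑ i, (gL l h C i) ^ 2 := by
  classical
  set P : (Fin n → Bool) → ℝ := fun x => if h x = 1 then 1 else 0 with hP
  set Q : (Fin n → Bool) → ℝ := fun x => if h x = 1 then 0 else 1 with hQ
  set a : Fin n → (Fin n → Bool) → ℝ := fun i x => if i ∈ C x then 1 else 0 with ha
  have hP0 : ∀ x, 0 ≤ P x := fun x => by simp only [hP]; split_ifs <;> norm_num
  have hQ0 : ∀ x, 0 ≤ Q x := fun x => by simp only [hQ]; split_ifs <;> norm_num
  have ha0 : ∀ i x, 0 ≤ a i x := fun i x => by simp only [ha]; split_ifs <;> norm_num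
  have hPQ : ∀ x, P x + Q x = 1 := fun x => by simp only [hP, hQ]; split_ifs <;> norm_num
  have hhx : ∀ x, h x = P x - Q x := fun x => by
    simp only [hP, hQ]
    rcases hB x with h1 | h1
    · simp [h1]
    · have : (-1 : ℝ) ≠ 1 := by norm_num
      simp [h1, this]
  have hpq : E P + E Q = 1 := by
    rw [← E_add]; simp only [hPQ, E_const]
  have hEh : E h = E P - E Q := by
    have : h = fun x => P x - Q x := funext hhx
    rw [this, E_sub]
  have hV : Vr h = 4 * (E P * E Q) := by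
    unfold Vr
    rw [hEh]
    have : E Q = 1 - E P := by linarith
    rw [this]; ring
  have key : ∀ x y, P x * Q y ≤ ∑ i, (P x * a i x) * (Q y * a i y) := by
    intro x y
    by_cases h1 : h x = 1
    · by_cases h2 : h y = 1
      · have : Q y = 0 := by simp [hQ, h2]
        simp [this]
      · have hne : h x ≠ h y := by rw [h1]; exact fun e => h2 e.symm
        obtain ⟨i, hi1, hi2⟩ := cert_meet hS hne
        have hPx : P x = 1 := by simp [hP, h1]
        have hQy : Q y = 1 := by simp [hQ, h2]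
        have h3 : ∀ k ∈ (Finset.univ : Finset (Fin n)), 0 ≤ (P x * a k x) * (Q y * a k y) :=
          fun k _ => mul_nonneg (mul_nonneg (hP0 x) (ha0 k x)) (mul_nonneg (hQ0 y) (ha0 k y))
        have h4 := Finset.single_le_sum h3 (Finset.mem_univ i)
        have h5 : (P x * a i x) * (Q y * a i y) = 1 := by
          simp [ha, hi1, hi2, hPx, hQy]
        rw [h5] at h4
        calc P x * Q y = 1 := by rw [hPx, hQy]; norm_num
          _ ≤ _ := h4
    · have : P x = 0 := by simp [hP, h1]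
      simp [this]
  have h6 : E P * E Q ≤ ∑ i, E (fun x => P x * a i x) * E (fun y => Q y * a i y) := by
    rw [← E_mul_E]
    have h7 : ∑ i, E (fun x => P x * a i x) * E (fun y => Q y * a i y) =
        E (fun x => E (fun y => ∑ i, (P x * a i x) * (Q y * a i y))) := by
      have h71 : (fun x => E (fun y => ∑ i, (P x * a i x) * (Q y * a i y))) =
          fun x => ∑ i, E (fun y => (P x * a i x) * (Q y * a i y)) :=
        funext fun x => E_sum _ _
      rw [h71, E_sum]
      refine Finset.sum_congr rfl fun i _ => ?_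
      rw [E_mul_E]
    rw [h7]
    exact E_mono fun x => E_mono fun y => key x y
  have hwt : ∀ x, wt l (h x) = l * P x + Q x / l := by
    intro x
    unfold wt
    simp only [hP, hQ]
    rcases hB x with h1 | h1
    · simp [h1]
    · have : (-1 : ℝ) ≠ 1 := by norm_num
      simp [h1, this]
  have h8 : ∀ i, gL l h C i = l * E (fun x => P x * a i x) + E (fun y => Q y * a i y) / l := by
    intro i
    have h81 : E (fun y => Q y * a i y) / l = E (fun y => Q y * a i y) * (1 / l) := by ring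
    rw [h81, ← E_const_mul, ← E_mul_const, ← E_add]
    unfold gL
    congr 1
    funext x
    rw [hwt x]
    simp only [ha]
    ring
  rw [hV]
  have h9 : ∀ i, 4 * (E (fun x => P x * a i x) * E (fun y => Q y * a i y)) ≤ (gL l h C i) ^ 2 := by
    intro i
    rw [h8 i]
    set p := E (fun x => P x * a i x)
    set q := E (fun y => Q y * a i y)
    have h91 : (l * p + q / l) ^ 2 - 4 * (p * q) = (l * p - q / l) ^ 2 := by
      field_simp
      ring
    nlinarith [sq_nonneg (l * p - q / l)]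
  calc 4 * (E P * E Q) ≤ 4 * ∑ i, E (fun x => P x * a i x) * E (fun y => Q y * a i y) := by linarith
    _ = ∑ i, 4 * (E (fun x => P x * a i x) * E (fun y => Q y * a i y)) := by rw [Finset.mul_sum]
    _ ≤ _ := Finset.sum_le_sum fun i _ => h9 i

lemma weight_ge' {θ l : ℝ} (hθ : 0 ≤ θ) (hl : 0 < l) {A : Finset (Fin n)}
    {h : (Fin n → Bool) → ℝ} {C : (Fin n → Bool) → Finset (Fin n)}
    (hbool : ∀ x, h x = 1 ∨ h x = -1) (hS : Scheme A h C)
    (hall : ∀ i ∈ A, θ * gL l h C i < c1 h i) :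
    θ ^ 2 * Vr h ≤ ∑ i, (c1 h i) ^ 2 := by
  have h1 := vr_le_sum_gL_sq hbool hS hl
  have h2 : θ ^ 2 * Vr h ≤ θ ^ 2 * ∑ i, (gL l h C i) ^ 2 :=
    mul_le_mul_of_nonneg_left h1 (by positivity)
  refine h2.trans ?_
  rw [Finset.mul_sum]
  refine Finset.sum_le_sum fun i _ => ?_
  by_cases hi : i ∈ A
  · have h3 := hall i hi
    have h4 := gL_nonneg hl hbool C i
    have h5 : 0 ≤ θ * gL l h C i := by positivity
    nlinarith
  · have h3 : gL l h C i = 0 := by
      unfold gL
      have : (fun x => wt l (h x) * (if i ∈ C x then (1 : ℝ) else 0)) = fun _ => 0 := by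
        funext x
        rw [if_neg fun hx => hi (hS.sub x hx)]
        ring
      rw [this, E_const]
    rw [h3]
    nlinarith [sq_nonneg (c1 h i)]

/-! ### The two forms of the bound -/

/-- The additive form. -/
def HL (n : ℕ) (θ c e : ℝ) : Prop :=
  ∀ (A : Finset (Fin n)) (h : (Fin n → Bool) → ℝ) (C : (Fin n → Bool) → Finset (Fin n)),
    (∀ x, h x = 1 ∨ h x = -1) → Scheme A h C → ∀ l : ℝ, 0 < l →
      L1 h ≤ θ * KL l h C + c * Psi e h C

/-- The homogeneous form. -/
def HH (n : ℕ) (ε e : ℝ) : Prop :=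
  ∀ (A : Finset (Fin n)) (h : (Fin n → Bool) → ℝ) (C : (Fin n → Bool) → Finset (Fin n)),
    (∀ x, h x = 1 ∨ h x = -1) → Scheme A h C → L1 h ≤ ε * Psi e h C

/-- One more level. -/
theorem HL_succ {θ c e : ℝ} (hθ0 : 0 ≤ θ) (hθ1 : θ ≤ 1) (hc : 0 ≤ c) (he : 0 ≤ e)
    (IH : HL n θ c e) : HL n θ (c * √(√(1 - θ ^ 2 / 2))) (2 * e + 1) := by
  classical
  have hω : 0 ≤ 1 - θ ^ 2 / 2 := by nlinarith
  set r : ℝ := √(√(1 - θ ^ 2 / 2)) with hr
  have hr0 : 0 ≤ r := Real.sqrt_nonneg _
  have he' : 0 ≤ 2 * e + 1 := by linarith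
  have key : ∀ (k : ℕ) (A : Finset (Fin n)), A.card = k → ∀ (h : (Fin n → Bool) → ℝ)
      (C : (Fin n → Bool) → Finset (Fin n)), (∀ x, h x = 1 ∨ h x = -1) → Scheme A h C →
      ∀ l : ℝ, 0 < l → L1 h ≤ θ * KL l h C + (c * r) * Psi (2 * e + 1) h C := by
    intro k
    induction k using Nat.strong_induction_on with
    | _ k ihk =>
      intro A hA h C hbool hS l hl
      by_cases hex : ∃ i ∈ A, c1 h i ≤ θ * gL l h C i
      · obtain ⟨i, hiA, hi⟩ := hex
        have hcard : (A \ {i}).card < k := by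
          rw [← hA, Finset.sdiff_singleton_eq_erase]
          exact Finset.card_erase_lt_of_mem hiA
        have hpt : ∀ z, L1 (res {i} z h) ≤ θ * KL l (res {i} z h) (resC {i} z C) +
            (c * r) * Psi (2 * e + 1) (res {i} z h) (resC {i} z C) := fun z =>
          ihk _ hcard (A \ {i}) rfl _ _ (fun x => hbool _) (hS.res {i} z) l hl
        have hav := E_mono hpt
        rw [E_add, E_const_mul, E_const_mul, E_L1_single, E_KL_single] at hav
        have hP := E_Psi_single he' hbool C i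
        have hP2 := mul_le_mul_of_nonneg_left hP (mul_nonneg hc hr0)
        have h3 : θ * (KL l h C - gL l h C i) = θ * KL l h C - θ * gL l h C i := by ring
        linarith
      · push Not at hex
        have hW := weight_ge' hθ0 hl hbool hS hex
        have hpt : ∀ w z : Fin n → Bool, L1 (res (fset w) z h) ≤
            θ * KL l (res (fset w) z h) (resC (fset w) z C) +
              c * Psi e (res (fset w) z h) (resC (fset w) z C) := fun w z =>
          IH _ _ _ (fun x => hbool _) (hS.res (fset w) z) l hl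
        have hav : E (fun w => E (fun z => L1 (res (fset w) z h))) ≤
            E (fun w => E (fun z => θ * KL l (res (fset w) z h) (resC (fset w) z C) +
              c * Psi e (res (fset w) z h) (resC (fset w) z C))) :=
          E_mono fun w => E_mono fun z => hpt w z
        have hexp : E (fun w => E (fun z => θ * KL l (res (fset w) z h) (resC (fset w) z C) +
              c * Psi e (res (fset w) z h) (resC (fset w) z C))) =
            θ * E (fun w => E (fun z => KL l (res (fset w) z h) (resC (fset w) z C))) +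
              c * E (fun w => E (fun z => Psi e (res (fset w) z h) (resC (fset w) z C))) := by
          have e1 : ∀ w : Fin n → Bool,
              E (fun z => θ * KL l (res (fset w) z h) (resC (fset w) z C) +
                c * Psi e (res (fset w) z h) (resC (fset w) z C)) =
              θ * E (fun z => KL l (res (fset w) z h) (resC (fset w) z C)) +
                c * E (fun z => Psi e (res (fset w) z h) (resC (fset w) z C)) := fun w => by
            rw [E_add, E_const_mul, E_const_mul]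
          simp only [e1]
          rw [E_add, E_const_mul, E_const_mul]
        rw [hexp, E_E_L1, E_E_KL] at hav
        have hP := E_E_Psi he hω hbool C hW
        have hP2 := mul_le_mul_of_nonneg_left hP hc
        have h3 : c * ((1 / 2) * r * Psi (2 * e + 1) h C) =
            (c * r) * Psi (2 * e + 1) h C / 2 := by ring
        rw [h3] at hP2
        have h4 : θ * (KL l h C / 2) = θ * KL l h C / 2 := by ring
        rw [h4] at hav
        linarith
  exact fun A h C hb hS l hl => key A.card A rfl h C hb hS l hl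

/-- Many more levels. -/
theorem HL_iter {θ c e : ℝ} (hθ0 : 0 ≤ θ) (hθ1 : θ ≤ 1) (hc : 0 ≤ c) (he : 0 ≤ e)
    (IH : HL n θ c e) (j : ℕ) :
    HL n θ (c * √(√(1 - θ ^ 2 / 2)) ^ j) (2 ^ j * (e + 1) - 1) := by
  induction j with
  | zero => simpa using IH
  | succ j ih =>
    have h1 : 0 ≤ c * √(√(1 - θ ^ 2 / 2)) ^ j := by positivity
    have h2 : (0 : ℝ) ≤ 2 ^ j * (e + 1) - 1 := by
      have h3 : (1 : ℝ) ≤ 2 ^ j := one_le_pow₀ (by norm_num)
      nlinarith
    have h4 := HL_succ hθ0 hθ1 h1 h2 ih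
    have h5 : (2 : ℝ) * (2 ^ j * (e + 1) - 1) + 1 = 2 ^ (j + 1) * (e + 1) - 1 := by
      rw [pow_succ]; ring
    rw [h5] at h4
    have h6 : c * √(√(1 - θ ^ 2 / 2)) ^ j * √(√(1 - θ ^ 2 / 2)) =
        c * √(√(1 - θ ^ 2 / 2)) ^ (j + 1) := by
      rw [pow_succ]; ring
    rwa [h6] at h4

lemma HL_of_HH {θ ε e : ℝ} (hθ0 : 0 ≤ θ) (h : HH n ε e) : HL n θ ε e := by
  intro A f C hb hS l hl
  have h1 := h A f C hb hS
  have h2 := mul_nonneg hθ0 (KL_nonneg hl hb C)
  linarith

lemma HH_mono {ε ε' e e' : ℝ} (hε : ε ≤ ε') (hε0 : 0 ≤ ε) (he0 : 0 ≤ e) (he : e ≤ e')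
    (h : HH n ε e) : HH n ε' e' := by
  intro A f C hb hS
  have h1 := h A f C hb hS
  have h2 : Psi e f C ≤ Psi e' f C := by
    unfold Psi
    refine Real.sqrt_le_sqrt (mul_le_mul_of_nonneg_left ?_ (Real.sqrt_nonneg _))
    have := mul_le_mul_of_nonneg_right he (KK_nonneg' C)
    linarith
  have h3 := Psi_nonneg e f C
  calc L1 f ≤ ε * Psi e f C := h1
    _ ≤ ε' * Psi e' f C := mul_le_mul hε h2 h3 (hε0.trans hε)

/-- A minimum over `μ`. -/
lemma le_sqrt_of_forall_mu {x a b : ℝ} (ha : 0 ≤ a) (hb : 0 ≤ b)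
    (h : ∀ μ : ℝ, 0 < μ → x ≤ μ * a + b / (2 * μ)) : x ≤ √(2 * a * b) := by
  by_cases hx : x ≤ 0
  · exact hx.trans (Real.sqrt_nonneg _)
  · push Not at hx
    rcases ha.eq_or_lt with ha0 | hapos
    · exfalso
      have h1 := h ((b + 1) / x) (by positivity)
      rw [← ha0] at h1
      have h2 : (b + 1) / x * 0 + b / (2 * ((b + 1) / x)) = x * (b / (2 * (b + 1))) := by
        field_simp
        ring
      rw [h2] at h1
      have h3 : b / (2 * (b + 1)) < 1 := by
        rw [div_lt_one (by positivity)]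
        linarith
      nlinarith
    · have h1 := h (x / (2 * a)) (by positivity)
      have h2 : x / (2 * a) * a + b / (2 * (x / (2 * a))) = x / 2 + a * b / x := by
        field_simp
      rw [h2] at h1
      have h3 : x ^ 2 ≤ 2 * a * b := by
        have h4 : x / 2 ≤ a * b / x := by linarith
        rw [le_div_iff₀ hx] at h4
        nlinarith
      exact Real.le_sqrt_of_sq_le h3

/-- The base of the iteration. -/
theorem HH_base : HH n (√2) 0 := by
  intro A h C hb hS
  have hV0 := Vr_nonneg hb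
  have hV1 := Vr_le_one h
  have hU0 := UU_nonneg' C
  have h1 : L1 h ≤ √(2 * Vr h * UU C) :=
    le_sqrt_of_forall_mu hV0 hU0 fun μ hμ => base_ineq hb hS hμ
  refine h1.trans ?_
  unfold Psi
  rw [← Real.sqrt_mul (by norm_num : (0 : ℝ) ≤ 2)]
  refine Real.sqrt_le_sqrt ?_
  have h2 : Vr h ≤ √(Vr h) := by
    refine Real.le_sqrt_of_sq_le ?_
    nlinarith
  have h3 := mul_le_mul_of_nonneg_right h2 hU0
  simp only [zero_mul, add_zero]
  nlinarith

lemma E_pos_of {f : (Fin n → Bool) → ℝ} (hf : ∀ x, 0 ≤ f x) {x : Fin n → Bool} (hx : 0 < f x) :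
    0 < E f := by
  unfold E
  refine div_pos ?_ (by positivity)
  exact Finset.sum_pos' (fun y _ => hf y) ⟨x, Finset.mem_univ x, hx⟩

/-- The split budget is controlled by the homogeneous quantity. -/
theorem exists_lam {A : Finset (Fin n)} {h : (Fin n → Bool) → ℝ}
    {C : (Fin n → Bool) → Finset (Fin n)} (hB : ∀ x, h x = 1 ∨ h x = -1) (hS : Scheme A h C)
    (hV : 0 < Vr h) : ∃ l : ℝ, 0 < l ∧ KL l h C ≤ √(√(Vr h) * UU C) := by
  classical
  set P : (Fin n → Bool) → ℝ := fun x => if h x = 1 then 1 else 0 with hP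
  set Q : (Fin n → Bool) → ℝ := fun x => if h x = 1 then 0 else 1 with hQ
  set s : (Fin n → Bool) → ℝ := fun x => ((C x).card : ℝ) with hs
  have hP01 : ∀ x, P x = 0 ∨ P x = 1 := fun x => by simp only [hP]; split_ifs <;> simp
  have hQ01 : ∀ x, Q x = 0 ∨ Q x = 1 := fun x => by simp only [hQ]; split_ifs <;> simp
  have hP0 : ∀ x, 0 ≤ P x := fun x => by rcases hP01 x with h1 | h1 <;> rw [h1] <;> norm_num
  have hQ0 : ∀ x, 0 ≤ Q x := fun x => by rcases hQ01 x with h1 | h1 <;> rw [h1] <;> norm_num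
  have hs0 : ∀ x, 0 ≤ s x := fun x => Nat.cast_nonneg _
  have hPQ : ∀ x, P x + Q x = 1 := fun x => by simp only [hP, hQ]; split_ifs <;> norm_num
  have hhx : ∀ x, h x = P x - Q x := fun x => by
    simp only [hP, hQ]
    rcases hB x with h1 | h1
    · simp [h1]
    · have : (-1 : ℝ) ≠ 1 := by norm_num
      simp [h1, this]
  have hpq : E P + E Q = 1 := by
    rw [← E_add]; simp only [hPQ, E_const]
  have hEh : E h = E P - E Q := by
    have : h = fun x => P x - Q x := funext hhx
    rw [this, E_sub]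
  have hVeq : Vr h = 4 * (E P * E Q) := by
    unfold Vr
    rw [hEh]
    have : E Q = 1 - E P := by linarith
    rw [this]; ring
  have hp0 : 0 ≤ E P := E_nonneg hP0
  have hq0 : 0 ≤ E Q := E_nonneg hQ0
  -- both values are taken
  have hpq0 : 0 < E P * E Q := by linarith
  have hppos : 0 < E P := by
    rcases hp0.eq_or_lt with h0 | h0
    · rw [← h0] at hpq0; simp at hpq0
    · exact h0
  have hqpos : 0 < E Q := by
    rcases hq0.eq_or_lt with h0 | h0
    · rw [← h0] at hpq0; simp at hpq0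
    · exact h0
  obtain ⟨x₁, hx₁⟩ : ∃ x, h x = 1 := by
    by_contra hcon
    push Not at hcon
    have : P = fun _ => 0 := by
      funext x; simp [hP, hcon x]
    rw [this, E_const] at hppos
    exact lt_irrefl _ hppos
  obtain ⟨x₀, hx₀⟩ : ∃ x, h x ≠ 1 := by
    by_contra hcon
    push Not at hcon
    have : Q = fun _ => 0 := by
      funext x; simp [hQ, hcon x]
    rw [this, E_const] at hqpos
    exact lt_irrefl _ hqpos
  have hne : h x₁ ≠ h x₀ := by rw [hx₁]; exact fun e => hx₀ e.symm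
  obtain ⟨i, hi1, hi0⟩ := cert_meet hS hne
  set K₁ := E (fun x => P x * s x) with hK₁
  set K₀ := E (fun x => Q x * s x) with hK₀
  have hs1 : 0 < s x₁ := by
    simp only [hs]; exact_mod_cast Finset.card_pos.2 ⟨i, hi1⟩
  have hs2 : 0 < s x₀ := by
    simp only [hs]; exact_mod_cast Finset.card_pos.2 ⟨i, hi0⟩
  have hK₁pos : 0 < K₁ := by
    refine E_pos_of (x := x₁) (fun x => mul_nonneg (hP0 x) (hs0 x)) ?_
    simp only [hP, hx₁, if_true, one_mul]
    exact hs1
  have hK₀pos : 0 < K₀ := by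
    refine E_pos_of (x := x₀) (fun x => mul_nonneg (hQ0 x) (hs0 x)) ?_
    simp only [hQ, if_neg hx₀, one_mul]
    exact hs2
  -- Cauchy-Schwarz in each class
  set U₁ := E (fun x => P x * s x ^ 2) with hU₁
  set U₀ := E (fun x => Q x * s x ^ 2) with hU₀
  have hU₁0 : 0 ≤ U₁ := E_nonneg fun x => mul_nonneg (hP0 x) (sq_nonneg _)
  have hU₀0 : 0 ≤ U₀ := E_nonneg fun x => mul_nonneg (hQ0 x) (sq_nonneg _)
  have hUU : UU C = U₁ + U₀ := by
    rw [hU₁, hU₀, ← E_add]
    unfold UU
    congr 1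
    funext x
    have := hPQ x
    simp only [hs]
    nlinarith
  have hc1 : K₁ ≤ √(E P) * √U₁ := by
    have h1 := E_sqrt_mul_le (A := P) (B := fun x => P x * s x ^ 2) hP0
      (fun x => mul_nonneg (hP0 x) (sq_nonneg _))
    refine le_trans (E_mono fun x => ?_) h1
    rcases hP01 x with h2 | h2
    · simp [h2]
    · rw [h2]
      simp only [one_mul, Real.sqrt_one]
      rw [Real.sqrt_sq (hs0 x)]
  have hc0 : K₀ ≤ √(E Q) * √U₀ := by
    have h1 := E_sqrt_mul_le (A := Q) (B := fun x => Q x * s x ^ 2) hQ0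
      (fun x => mul_nonneg (hQ0 x) (sq_nonneg _))
    refine le_trans (E_mono fun x => ?_) h1
    rcases hQ01 x with h2 | h2
    · simp [h2]
    · rw [h2]
      simp only [one_mul, Real.sqrt_one]
      rw [Real.sqrt_sq (hs0 x)]
  have hwt : ∀ (l : ℝ) x, wt l (h x) = l * P x + Q x / l := by
    intro l x
    unfold wt
    simp only [hP, hQ]
    rcases hB x with h1 | h1
    · simp [h1]
    · have : (-1 : ℝ) ≠ 1 := by norm_num
      simp [h1, this]
  have hKL : ∀ l : ℝ, KL l h C = l * K₁ + K₀ / l := by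
    intro l
    have h81 : K₀ / l = K₀ * (1 / l) := by ring
    rw [h81, hK₁, hK₀, ← E_const_mul, ← E_mul_const, ← E_add]
    unfold KL
    congr 1
    funext x
    rw [hwt l x]
    simp only [hs]
    ring
  refine ⟨√(K₀ / K₁), Real.sqrt_pos.2 (div_pos hK₀pos hK₁pos), ?_⟩
  rw [hKL]
  set l := √(K₀ / K₁) with hl
  have hlpos : 0 < l := Real.sqrt_pos.2 (div_pos hK₀pos hK₁pos)
  have hl2 : l * l = K₀ / K₁ := Real.mul_self_sqrt (div_pos hK₀pos hK₁pos).le
  have hsum : l * K₁ + K₀ / l = 2 * (l * K₁) := by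
    have : K₀ = l * l * K₁ := by rw [hl2]; field_simp
    rw [this]
    field_simp
    ring
  rw [hsum]
  refine Real.le_sqrt_of_sq_le ?_
  have hsq : (2 * (l * K₁)) ^ 2 = 4 * (K₀ * K₁) := by
    have : (2 * (l * K₁)) ^ 2 = 4 * ((l * l) * K₁ * K₁) := by ring
    rw [this, hl2]
    field_simp
  rw [hsq]
  -- `4 K₀ K₁ ≤ √V U`
  have h1 : K₀ * K₁ ≤ (√(E Q) * √U₀) * (√(E P) * √U₁) :=
    mul_le_mul hc0 hc1 hK₁pos.le (by positivity)
  have h2 : (√(E Q) * √U₀) * (√(E P) * √U₁) = √(E P * E Q) * (√U₁ * √U₀) := by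
    rw [Real.sqrt_mul hp0]; ring
  have h3 : √(Vr h) = 2 * √(E P * E Q) := by
    rw [hVeq, Real.sqrt_mul (by norm_num : (0 : ℝ) ≤ 4)]
    have : √(4 : ℝ) = 2 := by
      rw [show (4 : ℝ) = 2 ^ 2 by norm_num]
      exact Real.sqrt_sq (by norm_num)
    rw [this]
  have h4 : √U₁ * √U₀ ≤ (U₁ + U₀) / 2 := by
    have h5 := Real.sq_sqrt hU₁0
    have h6 := Real.sq_sqrt hU₀0
    nlinarith [sq_nonneg (√U₁ - √U₀)]
  have h7 := mul_le_mul_of_nonneg_left h4 (Real.sqrt_nonneg (E P * E Q))
  rw [h3, hUU]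
  rw [h2] at h1
  nlinarith

/-- The additive form gives the homogeneous form. -/
theorem HH_of_HL {θ c e : ℝ} (hθ0 : 0 ≤ θ) (hc : 0 ≤ c) (he : 0 ≤ e) (H : HL n θ c e) :
    HH n (θ + c) e := by
  intro A h C hb hS
  have hV0 := Vr_nonneg hb
  rcases hV0.eq_or_lt with hV | hV
  · -- the function is constant in the sense of the variance: the level-one sum is at most zero
    have hU0 := UU_nonneg' C
    have h1 : L1 h ≤ √(2 * Vr h * UU C) :=
      le_sqrt_of_forall_mu hV0 hU0 fun μ hμ => base_ineq hb hS hμ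
    rw [← hV] at h1
    simp only [mul_zero, zero_mul, Real.sqrt_zero] at h1
    exact h1.trans (mul_nonneg (add_nonneg hθ0 hc) (Psi_nonneg e h C))
  · obtain ⟨l, hl, hKL⟩ := exists_lam hb hS hV
    have h1 := H A h C hb hS l hl
    have h2 : √(√(Vr h) * UU C) ≤ Psi e h C := by
      unfold Psi
      refine Real.sqrt_le_sqrt (mul_le_mul_of_nonneg_left ?_ (Real.sqrt_nonneg _))
      have := mul_nonneg he (KK_nonneg' C)
      linarith
    have h3 := mul_le_mul_of_nonneg_left (hKL.trans h2) hθ0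
    have h4 : (θ + c) * Psi e h C = θ * Psi e h C + c * Psi e h C := by ring
    rw [h4]
    linarith

end Vale.Agent.Lib.P047C.Boot
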