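import Vale.Agent.Lib.P047C.Boot

/-!
The iteration of the homogeneous bound and the final form:
the level-one sum of a Boolean function is at most `13 D / √(log D)` in the certificate complexity.
-/

open Finset

namespace Vale.Agent.Lib.P047C.Boot

open Vale.Agent.Lib.P047C

variable {n : ℕ}

/-- The numerical step of the iteration. -/
lemma numeric_step (N : ℕ) (hN : 61 ≤ N) :
    4 / √(N : ℝ) + 11 / √((N - N / 2 : ℕ) : ℝ) *
      √(√(1 - (4 / √(N : ℝ)) ^ 2 / 2)) ^ (N / 2) ≤ 11 / √(N : ℝ) := by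
  have hNr : (61 : ℝ) ≤ N := by exact_mod_cast hN
  have hNpos : (0 : ℝ) < N := by linarith
  set s : ℝ := √(N : ℝ) with hs
  have hspos : 0 < s := Real.sqrt_pos.2 hNpos
  have hs2 : s ^ 2 = N := Real.sq_sqrt hNpos.le
  have hθ : (4 / s) ^ 2 / 2 = 8 / N := by
    rw [div_pow, hs2]; ring
  rw [hθ]
  set ω : ℝ := 1 - 8 / N with hω
  have h8 : 8 / (N : ℝ) ≤ 1 := by
    rw [div_le_one hNpos]; linarith
  have hω0 : 0 ≤ ω := by rw [hω]; linarith
  set r : ℝ := √(√ω) with hr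
  have hr0 : 0 ≤ r := Real.sqrt_nonneg _
  have hr4 : r ^ 4 = ω := by
    have h1 : r ^ 2 = √ω := Real.sq_sqrt (Real.sqrt_nonneg _)
    have h2 : √ω ^ 2 = ω := Real.sq_sqrt hω0
    calc r ^ 4 = (r ^ 2) ^ 2 := by ring
      _ = ω := by rw [h1, h2]
  have hr1 : r ≤ Real.exp (-(2 / N)) := by
    rw [← pow_le_pow_iff_left₀ hr0 (Real.exp_pos _).le (by norm_num : (4 : ℕ) ≠ 0), hr4]
    rw [← Real.exp_nat_mul]
    have h1 := Real.add_one_le_exp (-(8 / (N : ℝ)))
    have h2 : ((4 : ℕ) : ℝ) * (-(2 / (N : ℝ))) = -(8 / (N : ℝ)) := by push_cast; ring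
    rw [h2, hω]
    linarith
  set j : ℕ := N / 2 with hj
  have hj1 : N ≤ 2 * j + 1 := by omega
  have hj2 : 2 * j ≤ N := by omega
  have hj1r : (N : ℝ) ≤ 2 * j + 1 := by exact_mod_cast hj1
  have hj2r : 2 * (j : ℝ) ≤ N := by exact_mod_cast hj2
  have hrj : r ^ j ≤ 1 / (2305 / 1000) := by
    have h1 : r ^ j ≤ Real.exp (-(2 / N)) ^ j := pow_le_pow_left₀ hr0 hr1 j
    rw [← Real.exp_nat_mul] at h1
    have h2 : (j : ℝ) * (-(2 / (N : ℝ))) ≤ -(9 / 10) := by
      have h3 : (9 / 10 : ℝ) ≤ j * (2 / N) := by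
        have : (j : ℝ) * (2 / N) = (2 * j) / N := by ring
        rw [this, le_div_iff₀ hNpos]
        linarith
      linarith
    have h3 : Real.exp ((j : ℝ) * (-(2 / (N : ℝ)))) ≤ Real.exp (-(9 / 10)) := Real.exp_le_exp.2 h2
    have h4 := Real.quadratic_le_exp_of_nonneg (x := 9 / 10) (by norm_num)
    have h5 : Real.exp (-(9 / 10)) = 1 / Real.exp (9 / 10) := by
      rw [Real.exp_neg]; ring
    have h6 : (2305 / 1000 : ℝ) ≤ Real.exp (9 / 10) := by
      norm_num at h4 ⊢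
      linarith
    have h7 : 1 / Real.exp (9 / 10) ≤ 1 / (2305 / 1000) :=
      one_div_le_one_div_of_le (by norm_num) h6
    linarith
  have hcast : ((N - j : ℕ) : ℝ) = (N : ℝ) - j := by
    rw [Nat.cast_sub (by omega)]
  set s' : ℝ := √((N - j : ℕ) : ℝ) with hs'
  have hN'pos : (0 : ℝ) < ((N - j : ℕ) : ℝ) := by
    rw [hcast]; linarith
  have hs'pos : 0 < s' := Real.sqrt_pos.2 hN'pos
  have hs'2 : s' ^ 2 = (N : ℝ) - j := by
    rw [hs', Real.sq_sqrt hN'pos.le, hcast]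
  have hss' : s ≤ (14143 / 10000) * s' := by
    rw [← pow_le_pow_iff_left₀ hspos.le (by positivity) (by norm_num : (2 : ℕ) ≠ 0)]
    rw [mul_pow, hs2, hs'2]
    nlinarith
  have hrj0 : 0 ≤ r ^ j := by positivity
  have hkey : 11 / s' * r ^ j ≤ 7 / s := by
    rw [div_mul_eq_mul_div, div_le_div_iff₀ hs'pos hspos]
    have h1 : 11 * r ^ j * s ≤ 11 * (1 / (2305 / 1000)) * ((14143 / 10000) * s') := by
      refine mul_le_mul ?_ hss' hspos.le (by norm_num)
      linarith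
    have h2 : 11 * (1 / (2305 / 1000 : ℝ)) * ((14143 / 10000) * s') ≤ 7 * s' := by
      have : (11 * (1 / (2305 / 1000 : ℝ)) * (14143 / 10000)) ≤ 7 := by norm_num
      nlinarith
    linarith
  have hadd : 4 / s + 7 / s = 11 / s := by ring
  linarith

/-- The homogeneous bound at all levels. -/
theorem HH_all (J : ℕ) : HH n (11 / √((J : ℝ) + 1)) (2 ^ J - 1) := by
  induction J using Nat.strong_induction_on with
  | _ J ih =>
    have hJ1 : (1 : ℝ) ≤ 2 ^ J := one_le_pow₀ (by norm_num)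
    have hNpos : (0 : ℝ) < (J : ℝ) + 1 := by positivity
    by_cases hJ : J + 1 ≤ 60
    · refine HH_mono ?_ (Real.sqrt_nonneg _) le_rfl (by linarith) HH_base
      rw [le_div_iff₀ (Real.sqrt_pos.2 hNpos), ← Real.sqrt_mul (by norm_num : (0 : ℝ) ≤ 2)]
      refine Real.sqrt_le_iff.2 ⟨by norm_num, ?_⟩
      have : ((J : ℝ) + 1) ≤ 60 := by exact_mod_cast hJ
      nlinarith
    · push Not at hJ
      set N : ℕ := J + 1 with hN
      have hN61 : 61 ≤ N := by omega
      have hNcast : (N : ℝ) = (J : ℝ) + 1 := by rw [hN]; push_cast; ring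
      set j : ℕ := N / 2 with hj
      set J' : ℕ := J - j with hJ'
      have hJ'lt : J' < J := by omega
      have hN' : N - j = J' + 1 := by omega
      have hjJ : j + J' = J := by omega
      have IH := ih J' hJ'lt
      set θ : ℝ := 4 / √(N : ℝ) with hθ
      have hNr : (61 : ℝ) ≤ N := by exact_mod_cast hN61
      have hs4 : (4 : ℝ) ≤ √(N : ℝ) := by
        refine Real.le_sqrt_of_sq_le ?_
        norm_num
        linarith
      have hθ0 : 0 ≤ θ := by positivity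
      have hθ1 : θ ≤ 1 := by
        rw [hθ, div_le_one (by linarith)]
        exact hs4
      set c : ℝ := 11 / √((J' : ℝ) + 1) with hc
      have hc0 : 0 ≤ c := by positivity
      have he0 : (0 : ℝ) ≤ 2 ^ J' - 1 := by
        have : (1 : ℝ) ≤ 2 ^ J' := one_le_pow₀ (by norm_num)
        linarith
      have h1 := HL_iter hθ0 hθ1 hc0 he0 (HL_of_HH hθ0 IH) j
      have h2 := HH_of_HL hθ0 (by positivity) (by
        have h3 : (1 : ℝ) ≤ 2 ^ j := one_le_pow₀ (by norm_num)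
        have h4 : (1 : ℝ) ≤ 2 ^ J' := one_le_pow₀ (by norm_num)
        have h5 : (2 : ℝ) ^ j * (2 ^ J' - 1 + 1) = 2 ^ j * 2 ^ J' := by ring
        rw [h5]
        nlinarith) h1
      have h3 : (2 : ℝ) ^ j * (2 ^ J' - 1 + 1) - 1 = 2 ^ J - 1 := by
        have : (2 : ℝ) ^ j * (2 ^ J' - 1 + 1) = 2 ^ (j + J') := by rw [pow_add]; ring
        rw [this, hjJ]
      rw [h3] at h2
      refine HH_mono ?_ (by positivity) (by linarith) le_rfl h2
      have hnum := numeric_step N hN61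
      rw [← hNcast]
      have h5 : ((N - N / 2 : ℕ) : ℝ) = (J' : ℝ) + 1 := by
        rw [← hj, hN']; push_cast; ring
      rw [h5] at hnum
      exact hnum

/-- **Level-one sum against certificate complexity, with the variance.** -/
theorem bound_var (D : ℕ) (hD : 2 ≤ D) (f : (Fin n → Bool) → ℝ)
    (hbool : ∀ x, f x = 1 ∨ f x = -1)
    (hcert : ∀ x, ∃ S : Finset (Fin n), S.card ≤ D ∧ ∀ y, (∀ i ∈ S, y i = x i) → f y = f x) :
    L1 f ≤ 13 * √(√(Vr f)) * D / √(Real.log D) := by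
  classical
  choose C hC1 hC2 using hcert
  have hS : Scheme Finset.univ f C := ⟨fun x => Finset.subset_univ _, hC2⟩
  set J : ℕ := Nat.log 2 D with hJ
  have hD0 : D ≠ 0 := by omega
  have hJ1 : 2 ^ J ≤ D := Nat.pow_log_le_self 2 hD0
  have hJ2 : D < 2 ^ (J + 1) := Nat.lt_pow_succ_log_self (by norm_num) D
  have hDr : (2 : ℝ) ≤ D := by exact_mod_cast hD
  have hDpos : (0 : ℝ) < D := by linarith
  have hJ1r : (2 : ℝ) ^ J ≤ D := by exact_mod_cast hJ1
  have hJ2r : (D : ℝ) < 2 ^ (J + 1) := by exact_mod_cast hJ2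
  have hlogD : 0 < Real.log D := Real.log_pos (by linarith)
  have hlog : Real.log D ≤ ((J : ℝ) + 1) * Real.log 2 := by
    have h1 := Real.log_le_log hDpos hJ2r.le
    rw [Real.log_pow] at h1
    push_cast at h1
    exact h1
  have hJpos : (0 : ℝ) < (J : ℝ) + 1 := by positivity
  have h1 := HH_all (n := n) J Finset.univ f C hbool hS
  have hcard : ∀ x, ((C x).card : ℝ) ≤ D := fun x => by exact_mod_cast hC1 x
  have hK0 : 0 ≤ KK C := KK_nonneg' C
  have hK : KK C ≤ D := by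
    have := E_mono (f := fun x => ((C x).card : ℝ)) (g := fun _ => (D : ℝ)) hcard
    rwa [E_const] at this
  have hU : UU C ≤ (D : ℝ) ^ 2 := by
    have := E_mono (f := fun x => ((C x).card : ℝ) ^ 2) (g := fun _ => (D : ℝ) ^ 2) (fun x => by
      have h1 : (0 : ℝ) ≤ ((C x).card : ℝ) := by positivity
      have h2 := hcard x
      nlinarith)
    rwa [E_const] at this
  have hW : UU C + (2 ^ J - 1) * KK C ≤ 2 * (D : ℝ) ^ 2 := by
    have h2 : ((2 : ℝ) ^ J - 1) * KK C ≤ (D : ℝ) * D := by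
      have h3 : (1 : ℝ) ≤ 2 ^ J := one_le_pow₀ (by norm_num)
      exact mul_le_mul (by linarith) hK hK0 hDpos.le
    nlinarith
  have hVnn := Vr_nonneg hbool
  have hPsi : Psi (2 ^ J - 1) f C ≤ √(√(Vr f)) * (√2 * D) := by
    unfold Psi
    have h2 : √(Vr f) * (UU C + (2 ^ J - 1) * KK C) ≤ √(Vr f) * (2 * (D : ℝ) ^ 2) :=
      mul_le_mul_of_nonneg_left hW (Real.sqrt_nonneg _)
    refine (Real.sqrt_le_sqrt h2).trans (le_of_eq ?_)
    rw [Real.sqrt_mul (Real.sqrt_nonneg _), Real.sqrt_mul (by norm_num : (0 : ℝ) ≤ 2),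
      Real.sqrt_sq hDpos.le]
  set a : ℝ := √(Real.log D) with ha
  set b : ℝ := √((J : ℝ) + 1) with hb
  have hapos : 0 < a := Real.sqrt_pos.2 hlogD
  have hbpos : 0 < b := Real.sqrt_pos.2 hJpos
  have ha2 : a ^ 2 = Real.log D := Real.sq_sqrt hlogD.le
  have hb2 : b ^ 2 = (J : ℝ) + 1 := Real.sq_sqrt hJpos.le
  have hlog2 : Real.log 2 < 0.6931471808 := Real.log_two_lt_d9
  have hab : 11 * √2 * a ≤ 13 * b := by
    rw [← pow_le_pow_iff_left₀ (by positivity) (by positivity) (by norm_num : (2 : ℕ) ≠ 0)]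
    rw [mul_pow, mul_pow, mul_pow, Real.sq_sqrt (by norm_num : (0 : ℝ) ≤ 2), ha2, hb2]
    nlinarith
  have hX : 0 ≤ √(√(Vr f)) * D := by positivity
  have h2 : 11 / b * (√(√(Vr f)) * (√2 * D)) ≤ 13 * √(√(Vr f)) * D / a := by
    rw [div_mul_eq_mul_div, div_le_div_iff₀ hbpos hapos]
    have h3 := mul_le_mul_of_nonneg_right hab hX
    nlinarith
  have h3 : 11 / b * Psi (2 ^ J - 1) f C ≤ 11 / b * (√(√(Vr f)) * (√2 * D)) :=
    mul_le_mul_of_nonneg_left hPsi (by positivity)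
  linarith

lemma c1_eq_fourierCoeff' (f : (Fin n → Bool) → ℝ) (i : Fin n) :
    c1 f i = Vale.Agent.Lib.P047h.fourierCoeff f {i} := by
  unfold c1 E Vale.Agent.Lib.P047h.fourierCoeff Vale.Agent.Lib.P047h.chi
  congr 1
  refine Finset.sum_congr rfl fun x _ => ?_
  simp only [Finset.prod_singleton]
  congr 1

lemma L1_eq_sum (f : (Fin n → Bool) → ℝ) :
    L1 f = ∑ i, Vale.Agent.Lib.P047h.fourierCoeff f {i} :=
  Finset.sum_congr rfl fun i _ => c1_eq_fourierCoeff' f i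

/-- **Level-one sum against certificate complexity.** -/
theorem level_one_cert (D : ℕ) (hD : 2 ≤ D) (f : (Fin n → Bool) → ℝ)
    (hbool : ∀ x, f x = 1 ∨ f x = -1)
    (hcert : ∀ x, ∃ S : Finset (Fin n), S.card ≤ D ∧ ∀ y, (∀ i ∈ S, y i = x i) → f y = f x) :
    ∑ i, Vale.Agent.Lib.P047h.fourierCoeff f {i} ≤
      13 * √(√(1 - ((∑ x, f x) / 2 ^ n) ^ 2)) * D / √(Real.log D) := by
  rw [← L1_eq_sum]
  exact bound_var D hD f hbool hcert

/-- **Monotone functions.** -/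
theorem level_one_mono (d : ℕ) (hd : 2 ≤ d) (f : (Fin n → Bool) → ℝ)
    (hbool : ∀ x, f x = 1 ∨ f x = -1) (hmono : Monotone f)
    (hdeg : ∀ S : Finset (Fin n), d < S.card → Vale.Agent.Lib.P047h.fourierCoeff f S = 0) :
    ∑ i, Vale.Agent.Lib.P047h.fourierCoeff f {i} ≤
      13 * √(√(1 - ((∑ x, f x) / 2 ^ n) ^ 2)) * d / √(Real.log d) :=
  level_one_cert d hd f hbool fun x => mono_cert f hbool hmono hdeg x

end Vale.Agent.Lib.P047C.Boot
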