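import Mathlib

/-!
Averages over restrictions of a function on the cube (notes/P047C_blueprint.md).
-/

open Finset

namespace Vale.Agent.Lib.P047C

variable {n : ℕ}

/-- The sign of a bit. -/
def sg (b : Bool) : ℝ := if b then 1 else -1

lemma sg_not (b : Bool) : sg (!b) = - sg b := by cases b <;> simp [sg]
lemma sg_sq (b : Bool) : sg b * sg b = 1 := by cases b <;> simp [sg]
lemma sg_le_one (b : Bool) : sg b ≤ 1 := by cases b <;> simp [sg]
lemma abs_sg (b : Bool) : |sg b| = 1 := by cases b <;> simp [sg]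

/-- The uniform average on the cube. -/
noncomputable def E (g : (Fin n → Bool) → ℝ) : ℝ := (∑ x, g x) / 2 ^ n

lemma two_pow_pos' : (0 : ℝ) < 2 ^ n := by positivity

lemma E_add (f g : (Fin n → Bool) → ℝ) : E (fun x => f x + g x) = E f + E g := by
  simp [E, Finset.sum_add_distrib, add_div]

lemma E_sub (f g : (Fin n → Bool) → ℝ) : E (fun x => f x - g x) = E f - E g := by
  simp [E, Finset.sum_sub_distrib, sub_div]

lemma E_const_mul (c : ℝ) (f : (Fin n → Bool) → ℝ) : E (fun x => c * f x) = c * E f := by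
  simp [E, ← Finset.mul_sum, mul_div_assoc]

lemma E_mul_const (c : ℝ) (f : (Fin n → Bool) → ℝ) : E (fun x => f x * c) = E f * c := by
  simp [E, ← Finset.sum_mul, div_mul_eq_mul_div]

lemma E_const (c : ℝ) : E (fun _ : Fin n → Bool => c) = c := by
  simp [E]

lemma E_mono {f g : (Fin n → Bool) → ℝ} (h : ∀ x, f x ≤ g x) : E f ≤ E g := by
  unfold E
  exact div_le_div_of_nonneg_right (Finset.sum_le_sum fun x _ => h x) (by positivity)

lemma E_nonneg {f : (Fin n → Bool) → ℝ} (h : ∀ x, 0 ≤ f x) : 0 ≤ E f := by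
  have := E_mono (f := fun _ => (0 : ℝ)) (g := f) h
  simpa [E_const] using this

lemma E_sum {ι : Type} (S : Finset ι) (f : ι → (Fin n → Bool) → ℝ) :
    E (fun x => ∑ i ∈ S, f i x) = ∑ i ∈ S, E (f i) := by
  unfold E
  rw [Finset.sum_comm, Finset.sum_div]

lemma E_E_comm (f : (Fin n → Bool) → (Fin n → Bool) → ℝ) :
    E (fun z => E (fun x => f z x)) = E (fun x => E (fun z => f z x)) := by
  unfold E
  rw [← Finset.sum_div, ← Finset.sum_div, Finset.sum_comm]

/-- Flip one coordinate. -/
def flip (i : Fin n) (x : Fin n → Bool) : Fin n → Bool := Function.update x i (!x i)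

lemma flip_flip (i : Fin n) (x : Fin n → Bool) : flip i (flip i x) = x := by
  funext j
  by_cases h : j = i
  · subst h; simp [flip]
  · simp [flip, Function.update_of_ne h]

lemma flip_same (i : Fin n) (x : Fin n → Bool) : flip i x i = !x i := by simp [flip]

lemma flip_ne {i j : Fin n} (h : j ≠ i) (x : Fin n → Bool) : flip i x j = x j := by
  simp [flip, Function.update_of_ne h]

/-- The flip as a permutation. -/
def flipEquiv (i : Fin n) : (Fin n → Bool) ≃ (Fin n → Bool) :=
  Function.Involutive.toPerm (flip i) (flip_flip i)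

lemma sum_flip (i : Fin n) (g : (Fin n → Bool) → ℝ) : ∑ x, g (flip i x) = ∑ x, g x :=
  Equiv.sum_comp (flipEquiv i) g

/-- A function not changed by the flip of `i` is orthogonal to `x_i`. -/
lemma sum_invariant_mul_sg (i : Fin n) (g : (Fin n → Bool) → ℝ) (hg : ∀ x, g (flip i x) = g x) :
    ∑ x, g x * sg (x i) = 0 := by
  have h1 : ∑ x, g x * sg (x i) = ∑ x, g (flip i x) * sg (flip i x i) :=
    (sum_flip i (fun x => g x * sg (x i))).symm
  have h2 : ∑ x, g (flip i x) * sg (flip i x i) = - ∑ x, g x * sg (x i) := by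
    rw [← Finset.sum_neg_distrib]
    refine Finset.sum_congr rfl fun x _ => ?_
    rw [hg, flip_same, sg_not]; ring
  linarith

lemma E_sg (i : Fin n) : E (fun x : Fin n → Bool => sg (x i)) = 0 := by
  have := sum_invariant_mul_sg i (fun _ => (1 : ℝ)) (fun _ => rfl)
  simp only [one_mul] at this
  simp [E, this]

lemma E_sg_mul {i j : Fin n} (h : i ≠ j) : E (fun x : Fin n → Bool => sg (x j) * sg (x i)) = 0 := by
  have := sum_invariant_mul_sg i (fun x => sg (x j)) (fun x => by rw [flip_ne h.symm])
  simp [E, this]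

lemma E_sg_sq (i : Fin n) : E (fun x : Fin n → Bool => sg (x i) * sg (x i)) = 1 := by
  simp [sg_sq, E_const]

/-- Bessel's inequality for the coordinates. -/
lemma bessel (F : Finset (Fin n)) (g : (Fin n → Bool) → ℝ) :
    (E g) ^ 2 + ∑ i ∈ F, (E (fun x => g x * sg (x i))) ^ 2 ≤ E (fun x => g x ^ 2) := by
  classical
  induction F using Finset.induction_on generalizing g with
  | empty =>
    simp only [Finset.sum_empty, add_zero]
    -- `(E g)^2 ≤ E g^2`
    have h := E_nonneg (f := fun x => (g x - E g) ^ 2) (fun x => sq_nonneg _)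
    have h2 : E (fun x => (g x - E g) ^ 2) = E (fun x => g x ^ 2) - (E g) ^ 2 := by
      have : (fun x => (g x - E g) ^ 2) = fun x => g x ^ 2 + (-(2 * E g) * g x + (E g) ^ 2) := by
        funext x; ring
      rw [this, E_add, E_add, E_const_mul, E_const]; ring
    linarith
  | insert i F hi ih =>
    rw [Finset.sum_insert hi]
    set a := E (fun x => g x * sg (x i)) with ha
    set g' : (Fin n → Bool) → ℝ := fun x => g x - a * sg (x i) with hg'
    have h1 := ih g'
    have h2 : E g' = E g := by
      simp only [hg']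
      rw [E_sub, E_const_mul, E_sg]; ring
    have h3 : ∀ j ∈ F, E (fun x => g' x * sg (x j)) = E (fun x => g x * sg (x j)) := by
      intro j hj
      have hij : i ≠ j := fun h => hi (h ▸ hj)
      have : (fun x => g' x * sg (x j)) =
          fun x => g x * sg (x j) - a * (sg (x i) * sg (x j)) := by
        funext x; simp only [hg']; ring
      rw [this, E_sub, E_const_mul]
      have h0 : E (fun x : Fin n → Bool => sg (x i) * sg (x j)) = 0 := E_sg_mul hij.symm
      rw [h0]; ring
    have h4 : E (fun x => g' x ^ 2) = E (fun x => g x ^ 2) - a ^ 2 := by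
      have : (fun x => g' x ^ 2) =
          fun x => g x ^ 2 - (2 * a * (g x * sg (x i)) - a ^ 2 * (sg (x i) * sg (x i))) := by
        funext x; simp only [hg']; ring
      rw [this, E_sub, E_sub, E_const_mul, E_const_mul, E_sg_sq, ← ha]; ring
    have h5 : ∑ j ∈ F, (E (fun x => g' x * sg (x j))) ^ 2 = ∑ j ∈ F, (E (fun x => g x * sg (x j))) ^ 2 :=
      Finset.sum_congr rfl fun j hj => by rw [h3 j hj]
    rw [h2, h5, h4] at h1
    linarith

/-- Overwrite the coordinates in `F` by those of `z`. -/
def ovr (F : Finset (Fin n)) (z x : Fin n → Bool) : Fin n → Bool :=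
  fun i => if i ∈ F then z i else x i

lemma ovr_mem {F : Finset (Fin n)} {i : Fin n} (h : i ∈ F) (z x : Fin n → Bool) :
    ovr F z x i = z i := by simp [ovr, h]

lemma ovr_not_mem {F : Finset (Fin n)} {i : Fin n} (h : i ∉ F) (z x : Fin n → Bool) :
    ovr F z x i = x i := by simp [ovr, h]

/-- The average over `z` and `x` of a function of the overwritten point. -/
lemma E_E_ovr (F : Finset (Fin n)) (G : (Fin n → Bool) → ℝ) :
    E (fun z => E (fun x => G (ovr F z x))) = E G := by
  classical
  have hinv : Function.Involutive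
      (fun p : (Fin n → Bool) × (Fin n → Bool) => (ovr F p.2 p.1, ovr F p.1 p.2)) := by
    intro p
    ext i
    · by_cases h : i ∈ F <;> simp [ovr, h]
    · by_cases h : i ∈ F <;> simp [ovr, h]
  have h1 : ∑ p : (Fin n → Bool) × (Fin n → Bool), G (ovr F p.1 p.2) =
      ∑ p : (Fin n → Bool) × (Fin n → Bool), G p.2 :=
    Equiv.sum_comp (Function.Involutive.toPerm _ hinv) (fun p => G p.2)
  rw [Fintype.sum_prod_type, Fintype.sum_prod_type] at h1
  simp only [Finset.sum_const, Finset.card_univ, Fintype.card_pi, Fintype.card_bool,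
    Finset.prod_const, Fintype.card_fin, nsmul_eq_mul] at h1
  have h2 : (∑ z : Fin n → Bool, (∑ x, G (ovr F z x)) / 2 ^ n) =
      (∑ z : Fin n → Bool, ∑ x, G (ovr F z x)) / 2 ^ n := (Finset.sum_div _ _ _).symm
  unfold E
  rw [h2, h1]
  have h3 : (2 : ℝ) ^ n ≠ 0 := by positivity
  push_cast
  field_simp

/-- Level-one coefficient. -/
noncomputable def c1 (h : (Fin n → Bool) → ℝ) (i : Fin n) : ℝ := E (fun x => h x * sg (x i))

/-- The level-one sum. -/
noncomputable def L1 (h : (Fin n → Bool) → ℝ) : ℝ := ∑ i, c1 h i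

/-- The variance of a Boolean function. -/
noncomputable def Vr (h : (Fin n → Bool) → ℝ) : ℝ := 1 - (E h) ^ 2

/-- The average size of the sets of a scheme. -/
noncomputable def KK (C : (Fin n → Bool) → Finset (Fin n)) : ℝ := E (fun x => ((C x).card : ℝ))

/-- The average squared size of the sets of a scheme. -/
noncomputable def UU (C : (Fin n → Bool) → Finset (Fin n)) : ℝ := E (fun x => ((C x).card : ℝ) ^ 2)

/-- Frequency of a coordinate in a scheme. -/
noncomputable def gam (C : (Fin n → Bool) → Finset (Fin n)) (i : Fin n) : ℝ :=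
  E (fun x => if i ∈ C x then 1 else 0)

/-- A certificate scheme inside `A`. -/
structure Scheme (A : Finset (Fin n)) (h : (Fin n → Bool) → ℝ)
    (C : (Fin n → Bool) → Finset (Fin n)) : Prop where
  sub : ∀ x, C x ⊆ A
  cert : ∀ x y, (∀ i ∈ C x, y i = x i) → h y = h x

/-- Restriction of a function. -/
def res (F : Finset (Fin n)) (z : Fin n → Bool) (h : (Fin n → Bool) → ℝ) :
    (Fin n → Bool) → ℝ := fun x => h (ovr F z x)

/-- Restriction of a scheme. -/
def resC (F : Finset (Fin n)) (z : Fin n → Bool) (C : (Fin n → Bool) → Finset (Fin n)) :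
    (Fin n → Bool) → Finset (Fin n) := fun x => C (ovr F z x) \ F

lemma Scheme.res {A : Finset (Fin n)} {h : (Fin n → Bool) → ℝ}
    {C : (Fin n → Bool) → Finset (Fin n)} (hS : Scheme A h C) (F : Finset (Fin n))
    (z : Fin n → Bool) : Scheme (A \ F) (res F z h) (resC F z C) := by
  refine ⟨fun x => Finset.sdiff_subset_sdiff (hS.sub _) le_rfl, fun x y hxy => ?_⟩
  refine hS.cert _ _ fun i hi => ?_
  by_cases hF : i ∈ F
  · rw [ovr_mem hF, ovr_mem hF]
  · rw [ovr_not_mem hF, ovr_not_mem hF]
    exact hxy i (Finset.mem_sdiff.2 ⟨hi, hF⟩)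

lemma res_flip {F : Finset (Fin n)} {i : Fin n} (hi : i ∈ F) (z : Fin n → Bool)
    (h : (Fin n → Bool) → ℝ) (x : Fin n → Bool) : res F z h (flip i x) = res F z h x := by
  unfold res
  congr 1
  funext j
  by_cases hj : j ∈ F
  · rw [ovr_mem hj, ovr_mem hj]
  · have : j ≠ i := fun e => hj (e ▸ hi)
    rw [ovr_not_mem hj, ovr_not_mem hj, flip_ne this]

lemma c1_res_mem {F : Finset (Fin n)} {i : Fin n} (hi : i ∈ F) (z : Fin n → Bool)
    (h : (Fin n → Bool) → ℝ) : c1 (res F z h) i = 0 := by
  unfold c1 E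
  rw [sum_invariant_mul_sg i _ (res_flip hi z h)]
  simp

lemma E_c1_res_not_mem {F : Finset (Fin n)} {i : Fin n} (hi : i ∉ F) (h : (Fin n → Bool) → ℝ) :
    E (fun z => c1 (res F z h) i) = c1 h i := by
  unfold c1
  have := E_E_ovr F (fun y => h y * sg (y i))
  simp only [ovr_not_mem hi] at this
  exact this

/-- The level-one sum after restriction, on average. -/
lemma E_L1_res (F : Finset (Fin n)) (h : (Fin n → Bool) → ℝ) :
    E (fun z => L1 (res F z h)) = ∑ i ∈ Finset.univ \ F, c1 h i := by
  classical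
  unfold L1
  rw [E_sum]
  have h1 : ∀ i, E (fun z => c1 (res F z h) i) = if i ∈ F then 0 else c1 h i := by
    intro i
    by_cases hi : i ∈ F
    · simp only [c1_res_mem hi, if_pos hi, E_const]
    · rw [E_c1_res_not_mem hi, if_neg hi]
  rw [Finset.sum_congr rfl fun i _ => h1 i]
  rw [← Finset.sum_filter_add_sum_filter_not Finset.univ (fun i => i ∈ F)]
  have h2 : ∑ i ∈ Finset.univ.filter (fun i => i ∈ F), (if i ∈ F then (0 : ℝ) else c1 h i) = 0 :=
    Finset.sum_eq_zero fun i hi => by simp [(Finset.mem_filter.1 hi).2]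
  rw [h2, zero_add]
  have h3 : Finset.univ.filter (fun i => i ∉ F) = Finset.univ \ F := by
    ext i; simp
  rw [h3]
  exact Finset.sum_congr rfl fun i hi => by simp [(Finset.mem_sdiff.1 hi).2]

lemma E_KK_res (F : Finset (Fin n)) (C : (Fin n → Bool) → Finset (Fin n)) :
    E (fun z => KK (resC F z C)) = E (fun x => ((C x \ F).card : ℝ)) :=
  E_E_ovr F (fun y => ((C y \ F).card : ℝ))

lemma E_UU_res (F : Finset (Fin n)) (C : (Fin n → Bool) → Finset (Fin n)) :
    E (fun z => UU (resC F z C)) = E (fun x => ((C x \ F).card : ℝ) ^ 2) :=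
  E_E_ovr F (fun y => ((C y \ F).card : ℝ) ^ 2)

/-- The variance after restriction, on average. -/
lemma E_Vr_res (F : Finset (Fin n)) (h : (Fin n → Bool) → ℝ) :
    E (fun z => Vr (res F z h)) ≤ Vr h - ∑ i ∈ F, (c1 h i) ^ 2 := by
  set m : (Fin n → Bool) → ℝ := fun z => E (res F z h) with hm
  have h1 := bessel F m
  have h2 : E m = E h := E_E_ovr F h
  have h3 : ∀ i ∈ F, E (fun z => m z * sg (z i)) = c1 h i := by
    intro i hi
    have h4 : (fun z => m z * sg (z i)) = fun z => E (fun x => h (ovr F z x) * sg (ovr F z x i)) := by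
      funext z
      simp only [hm]
      rw [← E_mul_const]
      simp only [ovr_mem hi]
      rfl
    rw [h4]
    exact E_E_ovr F (fun y => h y * sg (y i))
  have h5 : ∑ i ∈ F, (E (fun z => m z * sg (z i))) ^ 2 = ∑ i ∈ F, (c1 h i) ^ 2 :=
    Finset.sum_congr rfl fun i hi => by rw [h3 i hi]
  rw [h2, h5] at h1
  have h6 : E (fun z => Vr (res F z h)) = 1 - E (fun z => m z ^ 2) := by
    have : (fun z => Vr (res F z h)) = fun z => 1 - m z ^ 2 := rfl
    rw [this, E_sub, E_const]
  rw [h6]
  unfold Vr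
  linarith

end Vale.Agent.Lib.P047C
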