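import Mathlib

/-!
The numeric step for notes/P047C_blueprint.md: from the bound `D (θ + 2 (1 - θ^2/2)^m)`
with `4^m ≤ D` to `9 D sqrt (log log D / log D)`.
-/

namespace Vale.Agent.Lib.P047C

/-- For `D ≥ 16` there are `θ ∈ [0,1]` and `m` with `4^m ≤ D` and
`θ + 2 (1 - θ²/2)^m ≤ 9 sqrt (log log D / log D)`. -/
theorem numeric_choice (D : ℕ) (hD : 16 ≤ D) :
    ∃ (θ : ℝ) (m : ℕ), 0 ≤ θ ∧ θ ≤ 1 ∧ 4 ^ m ≤ D ∧
      θ + 2 * (1 - θ ^ 2 / 2) ^ m ≤
        9 * Real.sqrt (Real.log (Real.log D) / Real.log D) := by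
  set m := Nat.log 4 D with hm
  have hD0 : D ≠ 0 := by omega
  have h1 : 4 ^ m ≤ D := Nat.pow_log_le_self 4 hD0
  have h2 : D < 4 ^ (m + 1) := Nat.lt_pow_succ_log_self (by norm_num) D
  have hm2 : 2 ≤ m := by
    rw [hm]
    exact (Nat.le_log_iff_pow_le (by norm_num) hD0).2 (by simpa using hD)
  have hmR : (2 : ℝ) ≤ m := by exact_mod_cast hm2
  have hmpos : (0 : ℝ) < m := by linarith
  have hl2a : (0.69 : ℝ) < Real.log 2 := by
    have := Real.log_two_gt_d9; linarith
  have hl2b : Real.log 2 < (0.7 : ℝ) := by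
    have := Real.log_two_lt_d9; linarith
  have hl4 : Real.log 4 = 2 * Real.log 2 := by
    rw [show (4 : ℝ) = 2 ^ 2 by norm_num, Real.log_pow]; norm_num
  have hDR : (16 : ℝ) ≤ D := by exact_mod_cast hD
  have hDpos : (0 : ℝ) < D := by linarith
  set x := Real.log D with hx
  -- upper and lower bounds for `x`
  have hx1 : (m : ℝ) * Real.log 4 ≤ x := by
    have : ((4 : ℝ) ^ m) ≤ D := by exact_mod_cast h1
    have h := Real.log_le_log (by positivity) this
    rwa [Real.log_pow] at h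
  have hx2 : x ≤ ((m : ℝ) + 1) * Real.log 4 := by
    have : (D : ℝ) ≤ (4 : ℝ) ^ (m + 1) := by exact_mod_cast h2.le
    have h := Real.log_le_log hDpos this
    rw [Real.log_pow] at h
    push_cast at h
    exact h
  have hmx : (m : ℝ) ≤ x := by
    rw [hl4] at hx1
    nlinarith
  have hxm : x ≤ 3 * (m : ℝ) := by
    rw [hl4] at hx2
    nlinarith
  have hx16 : (2.76 : ℝ) ≤ x := by
    have h := Real.log_le_log (by norm_num) hDR
    have h16 : Real.log 16 = 4 * Real.log 2 := by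
      rw [show (16 : ℝ) = 2 ^ 4 by norm_num, Real.log_pow]; norm_num
    rw [h16] at h
    rw [hx]
    linarith
  have hxpos : 0 < x := by linarith
  have hlx : 1 ≤ Real.log x := by
    rw [Real.le_log_iff_exp_le hxpos]
    have := Real.exp_one_lt_d9
    linarith
  -- the choice of θ
  have hlm0 : 0 < Real.log (m : ℝ) := Real.log_pos (by linarith)
  have hlmx : Real.log (m : ℝ) ≤ Real.log x := Real.log_le_log hmpos hmx
  have hlmm : 2 * Real.log (m : ℝ) ≤ m := by
    have h := Real.log_le_sub_one_of_pos (show (0 : ℝ) < (m : ℝ) / 2 by positivity)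
    rw [Real.log_div (by positivity) (by norm_num)] at h
    linarith
  set θ := Real.sqrt (2 * Real.log (m : ℝ) / m) with hθ
  have hθ0 : 0 ≤ θ := Real.sqrt_nonneg _
  have hy0 : 0 ≤ 2 * Real.log (m : ℝ) / m := by positivity
  have hθsq : θ ^ 2 = 2 * Real.log (m : ℝ) / m := Real.sq_sqrt hy0
  have hy1 : 2 * Real.log (m : ℝ) / m ≤ 1 := by
    rw [div_le_one hmpos]; exact hlmm
  have hθ1 : θ ≤ 1 := by
    rw [hθ]
    exact Real.sqrt_le_one.2 hy1
  refine ⟨θ, m, hθ0, hθ1, h1, ?_⟩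
  -- the power
  have hpow : (1 - θ ^ 2 / 2) ^ m ≤ 1 / (m : ℝ) := by
    have hb0 : 0 ≤ 1 - θ ^ 2 / 2 := by rw [hθsq]; linarith
    have hb1 : 1 - θ ^ 2 / 2 ≤ Real.exp (-(θ ^ 2 / 2)) := Real.one_sub_le_exp_neg _
    calc (1 - θ ^ 2 / 2) ^ m ≤ (Real.exp (-(θ ^ 2 / 2))) ^ m := pow_le_pow_left₀ hb0 hb1 m
      _ = Real.exp (-(Real.log (m : ℝ))) := by
          rw [← Real.exp_nat_mul, hθsq]
          congr 1
          field_simp
      _ = 1 / (m : ℝ) := by
          rw [Real.exp_neg, Real.exp_log hmpos, one_div]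
  set r := Real.sqrt (Real.log x / x) with hr
  have hrr0 : 0 ≤ Real.log x / x := by positivity
  have hr0 : 0 ≤ r := Real.sqrt_nonneg _
  have hrsq : r ^ 2 = Real.log x / x := Real.sq_sqrt hrr0
  -- θ ≤ 3 r
  have hθr : θ ≤ 3 * r := by
    rw [hθ, Real.sqrt_le_iff]
    refine ⟨by positivity, ?_⟩
    have : (3 * r) ^ 2 = 9 * (Real.log x / x) := by rw [mul_pow, hrsq]; norm_num
    rw [this, div_le_iff₀ hmpos]
    have h3 : x / 3 ≤ m := by linarith
    have key : 9 * (Real.log x / x) * (m : ℝ) ≥ 9 * (Real.log x / x) * (x / 3) := by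
      apply mul_le_mul_of_nonneg_left h3; positivity
    have e : 9 * (Real.log x / x) * (x / 3) = 3 * Real.log x := by
      field_simp; ring
    rw [e] at key
    linarith
  -- 1/m ≤ 3 r
  have h1m : 1 / (m : ℝ) ≤ 3 * r := by
    have hxr : 1 / x ≤ r := by
      rw [hr]
      apply Real.le_sqrt_of_sq_le
      rw [div_pow, one_pow, div_le_div_iff₀ (by positivity) hxpos]
      nlinarith [mul_pos hxpos hxpos]
    have : 1 / (m : ℝ) ≤ 3 * (1 / x) := by
      rw [div_le_iff₀ hmpos]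
      have : 3 * (1 / x) * (m : ℝ) = 3 * (m : ℝ) / x := by ring
      rw [this, le_div_iff₀ hxpos]
      linarith
    linarith
  calc θ + 2 * (1 - θ ^ 2 / 2) ^ m ≤ 3 * r + 2 * (3 * r) := by
        have := hpow.trans h1m
        linarith
    _ = 9 * r := by ring

end Vale.Agent.Lib.P047C
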