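import Vale.Agent.Lib.P047C.Induct
import Vale.Agent.Lib.P047C.Base
import Vale.Agent.Lib.P047C.Numeric
import Vale.Agent.Lib.P047C.MonoCert

/-!
Final form of the level-one bound of notes/P047C_blueprint.md.
-/

open Finset

namespace Vale.Agent.Lib.P047C

variable {n : ℕ}

/-- The claim at every level. -/
theorem claim {θ ω : ℝ} (hθ0 : 0 ≤ θ) (hθ1 : θ ≤ 1) (hω : ω = 1 - θ ^ 2 / 2) (j : ℕ)
    (A : Finset (Fin n)) (h : (Fin n → Bool) → ℝ) (C : (Fin n → Bool) → Finset (Fin n))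
    (hbool : ∀ x, h x = 1 ∨ h x = -1) (hS : Scheme A h C) (μ : ℝ) (hμ : 0 < μ) :
    L1 h ≤ θ * KK C + μ * Vr h + ω ^ j / (2 * μ) * (UU C + (2 ^ j - 1) * KK C) :=
  claim_of_base hθ0 hθ1 hω (fun _ _ _ hb hS' _ hμ' => base_step hS' hb hμ') j A h C hbool hS μ hμ

/-- **The level-one sum and the certificate complexity.** -/
theorem cert_bound {D : ℕ} {θ : ℝ} {m : ℕ} (hθ0 : 0 ≤ θ) (hθ1 : θ ≤ 1) (hm : 4 ^ m ≤ D)
    (f : (Fin n → Bool) → ℝ) (hbool : ∀ x, f x = 1 ∨ f x = -1)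
    (hcert : ∀ x, ∃ S : Finset (Fin n), S.card ≤ D ∧ ∀ y, (∀ i ∈ S, y i = x i) → f y = f x) :
    L1 f ≤ D * (θ + 2 * (1 - θ ^ 2 / 2) ^ m) := by
  classical
  choose C hC1 hC2 using hcert
  have hS : Scheme Finset.univ f C := ⟨fun x => Finset.subset_univ _, hC2⟩
  set ω : ℝ := 1 - θ ^ 2 / 2 with hω
  have hωpos : 0 < ω := by rw [hω]; nlinarith
  have hD1 : (1 : ℝ) ≤ D := by
    have : 1 ≤ D := le_trans (Nat.one_le_pow _ _ (by norm_num)) hm
    exact_mod_cast this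
  have hDpos : (0 : ℝ) < D := by linarith
  have hcard : ∀ x, ((C x).card : ℝ) ≤ D := fun x => by exact_mod_cast hC1 x
  have hK0 : 0 ≤ KK C := E_nonneg fun x => by positivity
  have hK : KK C ≤ D := by
    have := E_mono (f := fun x => ((C x).card : ℝ)) (g := fun _ => (D : ℝ)) hcard
    rwa [E_const] at this
  have hU0 : 0 ≤ UU C := E_nonneg fun x => by positivity
  have hU : UU C ≤ (D : ℝ) ^ 2 := by
    have := E_mono (f := fun x => ((C x).card : ℝ) ^ 2) (g := fun _ => (D : ℝ) ^ 2) (fun x => by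
      have h1 : (0 : ℝ) ≤ ((C x).card : ℝ) := by positivity
      have h2 := hcard x
      nlinarith)
    rwa [E_const] at this
  have hV : Vr f ≤ 1 := by
    unfold Vr
    nlinarith [sq_nonneg (E f)]
  have hμ : 0 < ω ^ m * D := by positivity
  have h1 := claim hθ0 hθ1 hω (2 * m) Finset.univ f C hbool hS (ω ^ m * D) hμ
  have h2 : θ * KK C ≤ θ * D := mul_le_mul_of_nonneg_left hK hθ0
  have h3 : ω ^ m * D * Vr f ≤ ω ^ m * D := by
    have := mul_le_mul_of_nonneg_left hV hμ.le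
    linarith
  have h4 : ω ^ (2 * m) / (2 * (ω ^ m * D)) = ω ^ m / (2 * D) := by
    rw [two_mul m, pow_add]
    field_simp
  have h5 : UU C + (2 ^ (2 * m) - 1) * KK C ≤ 2 * (D : ℝ) ^ 2 := by
    have h6 : (2 : ℝ) ^ (2 * m) = ((4 ^ m : ℕ) : ℝ) := by
      rw [pow_mul]; norm_num
    have h7 : ((4 ^ m : ℕ) : ℝ) ≤ D := by exact_mod_cast hm
    have h8 : (1 : ℝ) ≤ ((4 ^ m : ℕ) : ℝ) := by
      exact_mod_cast Nat.one_le_pow _ _ (by norm_num)
    rw [h6]
    have h9 : (((4 ^ m : ℕ) : ℝ) - 1) * KK C ≤ (D : ℝ) * D := by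
      apply mul_le_mul (by linarith) hK hK0 hDpos.le
    nlinarith
  have h6 : ω ^ (2 * m) / (2 * (ω ^ m * D)) * (UU C + (2 ^ (2 * m) - 1) * KK C) ≤ ω ^ m * D := by
    rw [h4]
    have h7 : 0 ≤ ω ^ m / (2 * (D : ℝ)) := by positivity
    have h8 := mul_le_mul_of_nonneg_left h5 h7
    have h9 : ω ^ m / (2 * (D : ℝ)) * (2 * (D : ℝ) ^ 2) = ω ^ m * D := by
      field_simp
    linarith
  have : (D : ℝ) * (θ + 2 * ω ^ m) = θ * D + ω ^ m * D + ω ^ m * D := by ring
  rw [this]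
  linarith

lemma c1_eq_fourierCoeff (f : (Fin n → Bool) → ℝ) (i : Fin n) :
    c1 f i = Vale.Agent.Lib.P047h.fourierCoeff f {i} := by
  unfold c1 E Vale.Agent.Lib.P047h.fourierCoeff Vale.Agent.Lib.P047h.chi
  congr 1
  refine Finset.sum_congr rfl fun x _ => ?_
  simp only [Finset.prod_singleton]
  congr 1

/-- **Level-one sum against certificate complexity, final form.** -/
theorem level_one_le_cert (D : ℕ) (hD : 16 ≤ D) (f : (Fin n → Bool) → ℝ)
    (hbool : ∀ x, f x = 1 ∨ f x = -1)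
    (hcert : ∀ x, ∃ S : Finset (Fin n), S.card ≤ D ∧ ∀ y, (∀ i ∈ S, y i = x i) → f y = f x) :
    ∑ i, Vale.Agent.Lib.P047h.fourierCoeff f {i} ≤
      9 * D * Real.sqrt (Real.log (Real.log D) / Real.log D) := by
  obtain ⟨θ, m, h0, h1, hm, hnum⟩ := numeric_choice D hD
  have h2 := cert_bound h0 h1 hm f hbool hcert
  have h3 : L1 f = ∑ i, Vale.Agent.Lib.P047h.fourierCoeff f {i} := by
    unfold L1
    exact Finset.sum_congr rfl fun i _ => c1_eq_fourierCoeff f i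
  rw [← h3]
  have hD0 : (0 : ℝ) ≤ D := by positivity
  have h4 := mul_le_mul_of_nonneg_left hnum hD0
  calc L1 f ≤ D * (θ + 2 * (1 - θ ^ 2 / 2) ^ m) := h2
    _ ≤ D * (9 * Real.sqrt (Real.log (Real.log D) / Real.log D)) := h4
    _ = 9 * D * Real.sqrt (Real.log (Real.log D) / Real.log D) := by ring

/-- **Monotone functions.**  A monotone Boolean function of degree at most `d ≥ 16` has
level-one sum (its total influence) at most `9 d √(log log d / log d)`. -/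
theorem level_one_le_monotone (d : ℕ) (hd : 16 ≤ d) (f : (Fin n → Bool) → ℝ)
    (hbool : ∀ x, f x = 1 ∨ f x = -1) (hmono : Monotone f)
    (hdeg : ∀ S : Finset (Fin n), d < S.card → Vale.Agent.Lib.P047h.fourierCoeff f S = 0) :
    ∑ i, Vale.Agent.Lib.P047h.fourierCoeff f {i} ≤
      9 * d * Real.sqrt (Real.log (Real.log d) / Real.log d) :=
  level_one_le_cert d hd f hbool fun x => mono_cert f hbool hmono hdeg x

end Vale.Agent.Lib.P047C
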