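import Vale.Agent.Lib.P047C.Cross

/-!
Averages over a uniformly random set of coordinates (notes/P047C_blueprint.md).
-/

open Finset

namespace Vale.Agent.Lib.P047C

variable {n : ℕ}

/-- The set of coordinates marked by `w`. -/
def Fw (w : Fin n → Bool) : Finset (Fin n) := Finset.univ.filter (fun i => w i = true)

/-- The indicator that `i` is not marked by `w`. -/
noncomputable def rr (w : Fin n → Bool) (i : Fin n) : ℝ := (1 - sg (w i)) / 2

lemma rr_eq (w : Fin n → Bool) (i : Fin n) : rr w i = if i ∈ Fw w then 0 else 1 := by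
  unfold rr Fw sg
  cases hw : w i <;> simp [hw]

lemma E_rr (i : Fin n) : E (fun w : Fin n → Bool => rr w i) = 1 / 2 := by
  unfold rr
  have : (fun w : Fin n → Bool => (1 - sg (w i)) / 2) = fun w => (1 / 2) * (1 - sg (w i)) := by
    funext w; ring
  rw [this, E_const_mul, E_sub, E_const, E_sg]; norm_num

lemma E_rr_mul {i k : Fin n} (hik : i ≠ k) :
    E (fun w : Fin n → Bool => rr w i * rr w k) = 1 / 4 := by
  unfold rr
  have : (fun w : Fin n → Bool => (1 - sg (w i)) / 2 * ((1 - sg (w k)) / 2)) =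
      fun w => (1 / 4) * (1 - sg (w i) - sg (w k) + sg (w k) * sg (w i)) := by
    funext w; ring
  rw [this, E_const_mul, E_add, E_sub, E_sub, E_const, E_sg, E_sg, E_sg_mul hik]; norm_num

lemma rr_mul_self (w : Fin n → Bool) (i : Fin n) : rr w i * rr w i = rr w i := by
  rw [rr_eq]; split_ifs <;> norm_num

lemma E_rr_mul_ite (i k : Fin n) :
    E (fun w : Fin n → Bool => rr w i * rr w k) = 1 / 4 + (if i = k then 1 / 4 else 0) := by
  by_cases h : i = k
  · subst h
    simp only [rr_mul_self, E_rr, if_true]; norm_num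
  · rw [E_rr_mul h, if_neg h]; norm_num

lemma card_sdiff_eq (T : Finset (Fin n)) (w : Fin n → Bool) :
    ((T \ Fw w).card : ℝ) = ∑ i ∈ T, rr w i := by
  classical
  have h1 : T \ Fw w = T.filter (fun i => i ∉ Fw w) := by
    ext i; simp
  rw [h1, Finset.card_filter]
  push_cast
  refine Finset.sum_congr rfl fun i _ => ?_
  rw [rr_eq]
  by_cases hi : i ∈ Fw w <;> simp [hi]

lemma E_card_sdiff (T : Finset (Fin n)) :
    E (fun w : Fin n → Bool => ((T \ Fw w).card : ℝ)) = (T.card : ℝ) / 2 := by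
  simp only [card_sdiff_eq]
  rw [E_sum]
  simp only [E_rr, Finset.sum_const, nsmul_eq_mul]
  ring

lemma E_card_sdiff_sq (T : Finset (Fin n)) :
    E (fun w : Fin n → Bool => ((T \ Fw w).card : ℝ) ^ 2) =
      (T.card : ℝ) ^ 2 / 4 + (T.card : ℝ) / 4 := by
  classical
  have h1 : (fun w : Fin n → Bool => ((T \ Fw w).card : ℝ) ^ 2) =
      fun w => ∑ i ∈ T, ∑ k ∈ T, rr w i * rr w k := by
    funext w
    rw [card_sdiff_eq, sq, Finset.sum_mul_sum]
  rw [h1, E_sum]
  have h2 : ∀ i ∈ T, E (fun w : Fin n → Bool => ∑ k ∈ T, rr w i * rr w k) =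
      (T.card : ℝ) / 4 + 1 / 4 := by
    intro i hi
    rw [E_sum]
    simp only [E_rr_mul_ite]
    rw [Finset.sum_add_distrib, Finset.sum_ite_eq T i (fun _ => (1 / 4 : ℝ)), if_pos hi,
      Finset.sum_const, nsmul_eq_mul]
    ring
  rw [Finset.sum_congr rfl h2, Finset.sum_const, nsmul_eq_mul]
  ring

lemma E_sum_not_mem (c : Fin n → ℝ) :
    E (fun w : Fin n → Bool => ∑ i ∈ Finset.univ \ Fw w, c i) = (∑ i, c i) / 2 := by
  classical
  have h1 : ∀ w : Fin n → Bool, ∑ i ∈ Finset.univ \ Fw w, c i = ∑ i, c i * rr w i := by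
    intro w
    have h2 : Finset.univ \ Fw w = Finset.univ.filter (fun i => i ∉ Fw w) := by
      ext i; simp
    rw [h2, Finset.sum_filter]
    refine Finset.sum_congr rfl fun i _ => ?_
    rw [rr_eq]
    by_cases hi : i ∈ Fw w <;> simp [hi]
  simp only [h1]
  rw [E_sum]
  simp only [E_const_mul, E_rr]
  rw [Finset.sum_div]
  refine Finset.sum_congr rfl fun i _ => ?_
  ring

lemma E_sum_mem (c : Fin n → ℝ) :
    E (fun w : Fin n → Bool => ∑ i ∈ Fw w, c i) = (∑ i, c i) / 2 := by
  classical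
  have h1 : ∀ w : Fin n → Bool, ∑ i ∈ Fw w, c i = (∑ i, c i) - ∑ i ∈ Finset.univ \ Fw w, c i := by
    intro w
    have := Finset.sum_sdiff (Finset.subset_univ (Fw w)) (f := c)
    linarith
  simp only [h1]
  rw [E_sub, E_const, E_sum_not_mem]
  ring

end Vale.Agent.Lib.P047C
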