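import Vale.Agent.Lib.P047C.RandF
import Vale.Agent.Lib.P047C.Cross

/-!
The induction of notes/P047C_blueprint.md: step (a), step (b) and the claim at every level.
-/

open Finset

namespace Vale.Agent.Lib.P047C

variable {n : ℕ}

lemma gam_nonneg (C : (Fin n → Bool) → Finset (Fin n)) (i : Fin n) : 0 ≤ gam C i := by
  unfold gam
  refine E_nonneg fun x => ?_
  split_ifs <;> norm_num

lemma card_sdiff_singleton_real (S : Finset (Fin n)) (i : Fin n) :
    ((S \ {i}).card : ℝ) = (S.card : ℝ) - (if i ∈ S then 1 else 0) := by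
  classical
  by_cases h : i ∈ S
  · rw [if_pos h, Finset.sdiff_singleton_eq_erase, Finset.card_erase_of_mem h]
    have : 1 ≤ S.card := Finset.card_pos.2 ⟨i, h⟩
    push_cast [Nat.cast_sub this]
    ring
  · rw [if_neg h, Finset.sdiff_singleton_eq_erase, Finset.erase_eq_of_notMem h]
    simp

/-- Removing one coordinate from a scheme: the average size. -/
lemma E_KK_res_single (C : (Fin n → Bool) → Finset (Fin n)) (i : Fin n) :
    E (fun z => KK (resC {i} z C)) = KK C - gam C i := by
  rw [E_KK_res]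
  simp only [card_sdiff_singleton_real]
  rw [E_sub]
  rfl

/-- Removing one coordinate from a scheme: the average squared size does not grow. -/
lemma E_UU_res_single_le (C : (Fin n → Bool) → Finset (Fin n)) (i : Fin n) :
    E (fun z => UU (resC {i} z C)) ≤ UU C := by
  rw [E_UU_res]
  refine E_mono fun x => ?_
  have : ((C x \ {i}).card : ℝ) ≤ ((C x).card : ℝ) := by
    exact_mod_cast Finset.card_le_card Finset.sdiff_subset
  have h0 : (0 : ℝ) ≤ ((C x \ {i}).card : ℝ) := by positivity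
  nlinarith

/-- Removing one coordinate from a function: the level-one sum. -/
lemma E_L1_res_single (h : (Fin n → Bool) → ℝ) (i : Fin n) :
    E (fun z => L1 (res {i} z h)) = L1 h - c1 h i := by
  classical
  rw [E_L1_res]
  unfold L1
  rw [← Finset.sum_sdiff (Finset.subset_univ ({i} : Finset (Fin n)))]
  simp

/-- Removing one coordinate from a function: the variance does not grow on average. -/
lemma E_Vr_res_single_le (h : (Fin n → Bool) → ℝ) (i : Fin n) :
    E (fun z => Vr (res {i} z h)) ≤ Vr h := by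
  have := E_Vr_res ({i} : Finset (Fin n)) h
  simp only [Finset.sum_singleton] at this
  nlinarith [sq_nonneg (c1 h i)]

/-- **Step (a).**  A coordinate with small level-one coefficient is queried for free. -/
theorem step_a {θ μ b e : ℝ} (hμ : 0 < μ) (hb : 0 ≤ b) (he : 0 ≤ e)
    {h : (Fin n → Bool) → ℝ} {C : (Fin n → Bool) → Finset (Fin n)} {i : Fin n}
    (hi : c1 h i ≤ θ * gam C i)
    (IH : ∀ z : Fin n → Bool, L1 (res {i} z h) ≤ θ * KK (resC {i} z C) + μ * Vr (res {i} z h) +
      b * (UU (resC {i} z C) + e * KK (resC {i} z C))) :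
    L1 h ≤ θ * KK C + μ * Vr h + b * (UU C + e * KK C) := by
  have hav : E (fun z => L1 (res {i} z h)) ≤ E (fun z => θ * KK (resC {i} z C) +
      μ * Vr (res {i} z h) + b * (UU (resC {i} z C) + e * KK (resC {i} z C))) := E_mono IH
  rw [E_add, E_add, E_const_mul, E_const_mul, E_const_mul, E_add, E_const_mul,
    E_L1_res_single, E_KK_res_single] at hav
  have h1 := E_UU_res_single_le C i
  have h2 := E_Vr_res_single_le h i
  have h3 := gam_nonneg C i
  have h4 : μ * E (fun z => Vr (res {i} z h)) ≤ μ * Vr h := mul_le_mul_of_nonneg_left h2 hμ.le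
  have h5 : b * (E (fun z => UU (resC {i} z C)) + e * (KK C - gam C i)) ≤ b * (UU C + e * KK C) := by
    refine mul_le_mul_of_nonneg_left ?_ hb
    have : e * (KK C - gam C i) ≤ e * KK C := mul_le_mul_of_nonneg_left (by linarith) he
    linarith
  linarith

/-- The level-one weight dominates the variance when all coefficients dominate the frequencies. -/
lemma weight_ge {θ : ℝ} (hθ : 0 ≤ θ) {A : Finset (Fin n)}
    {h : (Fin n → Bool) → ℝ} {C : (Fin n → Bool) → Finset (Fin n)}
    (hbool : ∀ x, h x = 1 ∨ h x = -1) (hS : Scheme A h C)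
    (hall : ∀ i ∈ A, θ * gam C i < c1 h i) :
    θ ^ 2 * Vr h ≤ ∑ i, (c1 h i) ^ 2 := by
  have h1 := vr_le_sum_gam_sq hbool hS
  have h2 : θ ^ 2 * Vr h ≤ θ ^ 2 * ∑ i, (gam C i) ^ 2 :=
    mul_le_mul_of_nonneg_left h1 (by positivity)
  refine h2.trans ?_
  rw [Finset.mul_sum]
  refine Finset.sum_le_sum fun i _ => ?_
  by_cases hi : i ∈ A
  · have h3 := hall i hi
    have h4 := gam_nonneg C i
    have h5 : 0 ≤ θ * gam C i := by positivity
    nlinarith
  · have h3 : gam C i = 0 := by
      unfold gam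
      have : (fun x => if i ∈ C x then (1 : ℝ) else 0) = fun _ => 0 := by
        funext x
        rw [if_neg fun hx => hi (hS.sub x hx)]
      rw [this, E_const]
    rw [h3]
    nlinarith [sq_nonneg (c1 h i)]

/-- **The claim at level `j + 1` from the claim at level `j`.** -/
theorem claim_succ {θ ω : ℝ} {j : ℕ} (hθ0 : 0 ≤ θ) (hθ1 : θ ≤ 1) (hω : ω = 1 - θ ^ 2 / 2)
    (IH : ∀ (A' : Finset (Fin n)) (h' : (Fin n → Bool) → ℝ)
      (C' : (Fin n → Bool) → Finset (Fin n)), (∀ x, h' x = 1 ∨ h' x = -1) → Scheme A' h' C' →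
      ∀ μ' : ℝ, 0 < μ' → L1 h' ≤ θ * KK C' + μ' * Vr h' +
        ω ^ j / (2 * μ') * (UU C' + (2 ^ j - 1) * KK C')) :
    ∀ (k : ℕ) (A : Finset (Fin n)), A.card = k → ∀ (h : (Fin n → Bool) → ℝ)
      (C : (Fin n → Bool) → Finset (Fin n)), (∀ x, h x = 1 ∨ h x = -1) → Scheme A h C →
      ∀ μ : ℝ, 0 < μ → L1 h ≤ θ * KK C + μ * Vr h +
        ω ^ (j + 1) / (2 * μ) * (UU C + (2 ^ (j + 1) - 1) * KK C) := by
  classical
  have hωpos : 0 < ω := by rw [hω]; nlinarith
  intro k
  induction k using Nat.strong_induction_on with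
  | _ k ihk =>
    intro A hA h C hbool hS μ hμ
    by_cases hex : ∃ i ∈ A, c1 h i ≤ θ * gam C i
    · obtain ⟨i, hiA, hi⟩ := hex
      have hb : 0 ≤ ω ^ (j + 1) / (2 * μ) := by positivity
      have he : (0 : ℝ) ≤ 2 ^ (j + 1) - 1 := by
        have : (1 : ℝ) ≤ 2 ^ (j + 1) := one_le_pow₀ (by norm_num)
        linarith
      refine step_a hμ hb he hi fun z => ?_
      have hcard : (A \ {i}).card < k := by
        rw [← hA]
        rw [Finset.sdiff_singleton_eq_erase]
        exact Finset.card_erase_lt_of_mem hiA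
      exact ihk _ hcard (A \ {i}) rfl _ _ (fun x => hbool _) (hS.res {i} z) μ hμ
    · push Not at hex
      exact step_b hω hωpos hμ hbool hS IH (weight_ge hθ0 hbool hS hex)

/-- **The claim at every level**, from the base inequality. -/
theorem claim_of_base {θ ω : ℝ} (hθ0 : 0 ≤ θ) (hθ1 : θ ≤ 1) (hω : ω = 1 - θ ^ 2 / 2)
    (base : ∀ (A' : Finset (Fin n)) (h' : (Fin n → Bool) → ℝ)
      (C' : (Fin n → Bool) → Finset (Fin n)), (∀ x, h' x = 1 ∨ h' x = -1) → Scheme A' h' C' →
      ∀ μ' : ℝ, 0 < μ' → L1 h' ≤ μ' * Vr h' + UU C' / (2 * μ')) (j : ℕ) :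
    ∀ (A : Finset (Fin n)) (h : (Fin n → Bool) → ℝ)
      (C : (Fin n → Bool) → Finset (Fin n)), (∀ x, h x = 1 ∨ h x = -1) → Scheme A h C →
      ∀ μ : ℝ, 0 < μ → L1 h ≤ θ * KK C + μ * Vr h +
        ω ^ j / (2 * μ) * (UU C + (2 ^ j - 1) * KK C) := by
  induction j with
  | zero =>
    intro A h C hbool hS μ hμ
    have h1 := base A h C hbool hS μ hμ
    have h2 : 0 ≤ KK C := E_nonneg fun x => by positivity
    have h3 : 0 ≤ θ * KK C := by positivity
    have h4 : ω ^ 0 / (2 * μ) * (UU C + (2 ^ 0 - 1) * KK C) = UU C / (2 * μ) := by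
      simp; ring
    rw [h4]
    linarith
  | succ j ih =>
    intro A h C hbool hS μ hμ
    exact claim_succ hθ0 hθ1 hω ih A.card A rfl h C hbool hS μ hμ

end Vale.Agent.Lib.P047C
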