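import Vale.Agent.Lib.P047C.Half

/-!
The induction on the level `j` and on the free set, and the final bound
(notes/P047C_blueprint.md).
-/

open Finset

namespace Vale.Agent.Lib.P047C

variable {n : ℕ}

lemma avg_ineq {l k v u : (Fin n → Bool) → ℝ} {θ μ b e : ℝ}
    (h : ∀ z, l z ≤ θ * k z + μ * v z + b * (u z + e * k z)) :
    E l ≤ θ * E k + μ * E v + b * (E u + e * E k) := by
  calc E l ≤ E (fun z => θ * k z + μ * v z + b * (u z + e * k z)) := E_mono h
    _ = _ := by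
      rw [E_add, E_add, E_const_mul, E_const_mul, E_const_mul, E_add, E_const_mul]

lemma KK_nonneg (C : (Fin n → Bool) → Finset (Fin n)) : 0 ≤ KK C :=
  E_nonneg fun _ => Nat.cast_nonneg _

lemma gam_nonneg (C : (Fin n → Bool) → Finset (Fin n)) (i : Fin n) : 0 ≤ gam C i :=
  E_nonneg fun x => by split_ifs <;> norm_num

lemma gam_eq_zero {A : Finset (Fin n)} {h : (Fin n → Bool) → ℝ}
    {C : (Fin n → Bool) → Finset (Fin n)} (hS : Scheme A h C) {i : Fin n} (hi : i ∉ A) :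
    gam C i = 0 := by
  unfold gam
  have h1 : ∀ x, i ∉ C x := fun x hx => hi (hS.sub x hx)
  simp only [h1, if_false, E_const]

/-- The statement at level `j`. -/
def Claim (n : ℕ) (θ : ℝ) (j : ℕ) : Prop :=
  ∀ (A : Finset (Fin n)) (h : (Fin n → Bool) → ℝ), (∀ x, h x = 1 ∨ h x = -1) →
    ∀ (C : (Fin n → Bool) → Finset (Fin n)), Scheme A h C → ∀ μ : ℝ, 0 < μ →
      L1 h ≤ θ * KK C + μ * Vr h +
        ((1 - θ ^ 2 / 2) ^ j / (2 * μ)) * (UU C + ((2 : ℝ) ^ j - 1) * KK C)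

theorem claim_zero {θ : ℝ} (hθ0 : 0 ≤ θ) : Claim n θ 0 := by
  intro A h hB C hS μ hμ
  have h1 := base_ineq hB hS hμ
  have h2 : 0 ≤ θ * KK C := mul_nonneg hθ0 (KK_nonneg C)
  have h3 : ((1 - θ ^ 2 / 2) ^ 0 / (2 * μ)) * (UU C + ((2 : ℝ) ^ 0 - 1) * KK C) =
      UU C / (2 * μ) := by
    simp only [pow_zero]; ring
  rw [h3]
  linarith

/-- Removing one coordinate from all the sets of a scheme. -/
lemma E_card_sdiff_singleton (C : (Fin n → Bool) → Finset (Fin n)) (i : Fin n) :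
    E (fun x => ((C x \ {i}).card : ℝ)) = KK C - gam C i := by
  classical
  unfold KK gam
  rw [← E_sub]
  congr 1
  funext x
  rw [Finset.sdiff_singleton_eq_erase]
  by_cases hi : i ∈ C x
  · rw [Finset.cast_card_erase_of_mem hi, if_pos hi]
  · rw [Finset.erase_eq_of_notMem hi, if_neg hi, sub_zero]

lemma E_card_sdiff_singleton_sq (C : (Fin n → Bool) → Finset (Fin n)) (i : Fin n) :
    E (fun x => ((C x \ {i}).card : ℝ) ^ 2) ≤ UU C := by
  refine E_mono fun x => ?_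
  have h1 : ((C x \ {i}).card : ℝ) ≤ (C x).card := by
    exact_mod_cast Finset.card_le_card Finset.sdiff_subset
  have h2 : (0 : ℝ) ≤ (C x \ {i}).card := Nat.cast_nonneg _
  exact pow_le_pow_left₀ h2 h1 2

theorem claim_step {θ : ℝ} (hθ0 : 0 ≤ θ) (hθ1 : θ ≤ 1) {j : ℕ} (hj : Claim n θ j) :
    Claim n θ (j + 1) := by
  classical
  intro A
  induction A using Finset.strongInduction with
  | H A ih =>
  intro h hB C hS μ hμ
  have hθ2 : θ ^ 2 ≤ 1 := by nlinarith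
  set ω : ℝ := 1 - θ ^ 2 / 2 with hω
  have hω0 : 0 < ω := by rw [hω]; linarith
  have hK0 : 0 ≤ KK C := KK_nonneg C
  by_cases hcase : ∃ i ∈ A, c1 h i ≤ θ * gam C i
  · obtain ⟨i, hiA, hi⟩ := hcase
    have hsub : A \ {i} ⊂ A := by
      rw [Finset.sdiff_singleton_eq_erase]
      exact Finset.erase_ssubset hiA
    set b : ℝ := ω ^ (j + 1) / (2 * μ) with hb
    have hb0 : 0 ≤ b := div_nonneg (pow_nonneg hω0.le _) (by linarith)
    set e : ℝ := (2 : ℝ) ^ (j + 1) - 1 with he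
    have he0 : 0 ≤ e := by
      have : (1 : ℝ) ≤ 2 ^ (j + 1) := one_le_pow₀ (by norm_num)
      rw [he]; linarith
    have hz : ∀ z, L1 (res {i} z h) ≤ θ * KK (resC {i} z C) + μ * Vr (res {i} z h) +
        b * (UU (resC {i} z C) + e * KK (resC {i} z C)) :=
      fun z => ih _ hsub _ (fun x => hB _) _ (hS.res {i} z) μ hμ
    have hav := avg_ineq hz
    rw [E_L1_res, E_KK_res, E_UU_res, E_card_sdiff_singleton] at hav
    have h1 : ∑ k ∈ Finset.univ \ {i}, c1 h k = L1 h - c1 h i := by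
      have := Finset.sum_sdiff (Finset.subset_univ {i}) (f := c1 h)
      rw [Finset.sum_singleton] at this
      unfold L1
      linarith
    rw [h1] at hav
    have h2 := E_card_sdiff_singleton_sq C i
    have h3 : E (fun z => Vr (res {i} z h)) ≤ Vr h := by
      have h4 := E_Vr_res {i} h
      rw [Finset.sum_singleton] at h4
      nlinarith [sq_nonneg (c1 h i)]
    have h5 := mul_le_mul_of_nonneg_left h3 hμ.le
    have h6 : 0 ≤ gam C i := gam_nonneg C i
    have h7 : b * (E (fun x => ((C x \ {i}).card : ℝ) ^ 2) + e * (KK C - gam C i)) ≤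
        b * (UU C + e * KK C) := by
      refine mul_le_mul_of_nonneg_left ?_ hb0
      nlinarith [mul_nonneg he0 h6]
    linarith
  · push Not at hcase
    have hW : θ ^ 2 * Vr h ≤ ∑ i, (c1 h i) ^ 2 := by
      have h1 := vr_le_sum_gam_sq hB hS
      have h2 : ∀ i, θ ^ 2 * (gam C i) ^ 2 ≤ (c1 h i) ^ 2 := by
        intro i
        by_cases hi : i ∈ A
        · have h3 := hcase i hi
          have h4 : 0 ≤ θ * gam C i := mul_nonneg hθ0 (gam_nonneg C i)
          have h5 : (θ * gam C i) ^ 2 ≤ (c1 h i) ^ 2 := pow_le_pow_left₀ h4 h3.le 2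
          rwa [mul_pow] at h5
        · rw [gam_eq_zero hS hi]
          have := sq_nonneg (c1 h i)
          simpa using this
      calc θ ^ 2 * Vr h ≤ θ ^ 2 * ∑ i, (gam C i) ^ 2 :=
            mul_le_mul_of_nonneg_left h1 (sq_nonneg _)
        _ = ∑ i, θ ^ 2 * (gam C i) ^ 2 := Finset.mul_sum _ _ _
        _ ≤ _ := Finset.sum_le_sum fun i _ => h2 i
    set μ' : ℝ := μ / (2 * ω) with hμ'def
    have hμ' : 0 < μ' := by positivity
    set b' : ℝ := ω ^ j / (2 * μ') with hb'def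
    set e' : ℝ := (2 : ℝ) ^ j - 1 with he'def
    have hw : ∀ w : Fin n → Bool,
        ∑ i ∈ Finset.univ \ Fw w, c1 h i ≤ θ * E (fun x => ((C x \ Fw w).card : ℝ)) +
          μ' * (Vr h - ∑ i ∈ Fw w, (c1 h i) ^ 2) +
          b' * (E (fun x => ((C x \ Fw w).card : ℝ) ^ 2) +
            e' * E (fun x => ((C x \ Fw w).card : ℝ))) := by
      intro w
      have hz : ∀ z, L1 (res (Fw w) z h) ≤ θ * KK (resC (Fw w) z C) +
          μ' * Vr (res (Fw w) z h) +
          b' * (UU (resC (Fw w) z C) + e' * KK (resC (Fw w) z C)) :=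
        fun z => hj _ _ (fun x => hB _) _ (hS.res (Fw w) z) μ' hμ'
      have hav := avg_ineq hz
      rw [E_L1_res, E_KK_res, E_UU_res] at hav
      have hV := mul_le_mul_of_nonneg_left (E_Vr_res (Fw w) h) hμ'.le
      linarith
    have hav := avg_ineq (l := fun w => ∑ i ∈ Finset.univ \ Fw w, c1 h i)
      (k := fun w => E (fun x => ((C x \ Fw w).card : ℝ)))
      (v := fun w => Vr h - ∑ i ∈ Fw w, (c1 h i) ^ 2)
      (u := fun w => E (fun x => ((C x \ Fw w).card : ℝ) ^ 2)) hw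
    have hEL : E (fun w : Fin n → Bool => ∑ i ∈ Finset.univ \ Fw w, c1 h i) = L1 h / 2 :=
      E_sum_not_mem _
    have hEK : E (fun w : Fin n → Bool => E (fun x => ((C x \ Fw w).card : ℝ))) = KK C / 2 := by
      rw [E_E_comm]
      simp only [E_card_sdiff]
      unfold KK
      simp only [div_eq_mul_inv]
      rw [E_mul_const]
    have hEU : E (fun w : Fin n → Bool => E (fun x => ((C x \ Fw w).card : ℝ) ^ 2)) =
        UU C / 4 + KK C / 4 := by
      rw [E_E_comm]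
      simp only [E_card_sdiff_sq]
      rw [E_add]
      unfold KK UU
      simp only [div_eq_mul_inv]
      rw [E_mul_const, E_mul_const]
    have hEV : E (fun w : Fin n → Bool => Vr h - ∑ i ∈ Fw w, (c1 h i) ^ 2) =
        Vr h - (∑ i, (c1 h i) ^ 2) / 2 := by
      rw [E_sub, E_const, E_sum_mem]
    rw [hEL, hEK, hEU, hEV] at hav
    have hμV : μ' * (Vr h - (∑ i, (c1 h i) ^ 2) / 2) ≤ μ / 2 * Vr h := by
      have h1 : Vr h - (∑ i, (c1 h i) ^ 2) / 2 ≤ ω * Vr h := by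
        rw [hω]; nlinarith
      have h2 := mul_le_mul_of_nonneg_left h1 hμ'.le
      have h3 : μ' * (ω * Vr h) = μ / 2 * Vr h := by
        rw [hμ'def]; field_simp
      linarith
    have hb'eq : b' = 2 * (ω ^ (j + 1) / (2 * μ)) := by
      rw [hb'def, hμ'def, pow_succ]
      field_simp
    have he2 : (2 : ℝ) ^ (j + 1) - 1 = 2 * e' + 1 := by
      rw [he'def, pow_succ]; ring
    have hlast : b' * (UU C / 4 + KK C / 4 + e' * (KK C / 2)) =
        (ω ^ (j + 1) / (2 * μ)) * (UU C + ((2 : ℝ) ^ (j + 1) - 1) * KK C) / 2 := by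
      rw [hb'eq, he2]; ring
    have hmid : θ * (KK C / 2) = θ * KK C / 2 := by ring
    rw [hlast, hmid] at hav
    linarith

theorem claim_all {θ : ℝ} (hθ0 : 0 ≤ θ) (hθ1 : θ ≤ 1) (j : ℕ) : Claim n θ j := by
  induction j with
  | zero => exact claim_zero hθ0
  | succ j ih => exact claim_step hθ0 hθ1 ih

/-- The main bound: certificate size `D`, any `θ` in `[0,1]`, any `m` with `4 ^ m ≤ D`. -/
theorem cert_bound (h : (Fin n → Bool) → ℝ) (hB : ∀ x, h x = 1 ∨ h x = -1) (D : ℕ)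
    (hcert : ∀ x, ∃ S : Finset (Fin n), S.card ≤ D ∧ ∀ y, (∀ i ∈ S, y i = x i) → h y = h x)
    {θ : ℝ} (hθ0 : 0 ≤ θ) (hθ1 : θ ≤ 1) {m : ℕ} (hm : 4 ^ m ≤ D) :
    L1 h ≤ (D : ℝ) * (θ + 2 * (1 - θ ^ 2 / 2) ^ m) := by
  classical
  choose C hC1 hC2 using hcert
  have hS : Scheme Finset.univ h C := ⟨fun _ => Finset.subset_univ _, hC2⟩
  have hD1 : 1 ≤ D := le_trans (Nat.one_le_pow _ _ (by norm_num)) hm
  have hDpos : (0 : ℝ) < D := by exact_mod_cast hD1
  have hθ2 : θ ^ 2 ≤ 1 := by nlinarith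
  set ω : ℝ := 1 - θ ^ 2 / 2 with hω
  have hω0 : 0 < ω := by rw [hω]; linarith
  have hωm : 0 < ω ^ m := pow_pos hω0 m
  have hcard : ∀ x, ((C x).card : ℝ) ≤ D := fun x => by exact_mod_cast hC1 x
  have hK0 : 0 ≤ KK C := KK_nonneg C
  have hK : KK C ≤ D := by
    have := E_mono (f := fun x => ((C x).card : ℝ)) (g := fun _ => (D : ℝ)) hcard
    rwa [E_const] at this
  have hU : UU C ≤ (D : ℝ) ^ 2 := by
    have := E_mono (f := fun x => ((C x).card : ℝ) ^ 2) (g := fun _ => (D : ℝ) ^ 2)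
      fun x => pow_le_pow_left₀ (Nat.cast_nonneg _) (hcard x) 2
    rwa [E_const] at this
  have hV : Vr h ≤ 1 := by
    unfold Vr
    nlinarith [sq_nonneg (E h)]
  have hmain := claim_all (n := n) hθ0 hθ1 (2 * m) Finset.univ h hB C hS ((ω ^ m) * D)
    (mul_pos hωm hDpos)
  have h4 : ((2 : ℝ) ^ (2 * m) - 1) ≤ D := by
    have h5 : ((4 ^ m : ℕ) : ℝ) ≤ D := by exact_mod_cast hm
    have h6 : (2 : ℝ) ^ (2 * m) = ((4 ^ m : ℕ) : ℝ) := by
      rw [pow_mul]; norm_num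
    rw [h6]; linarith
  have h5 : 0 ≤ (2 : ℝ) ^ (2 * m) - 1 := by
    have : (1 : ℝ) ≤ 2 ^ (2 * m) := one_le_pow₀ (by norm_num)
    linarith
  have h6 : UU C + ((2 : ℝ) ^ (2 * m) - 1) * KK C ≤ 2 * (D : ℝ) ^ 2 := by
    have h7 : ((2 : ℝ) ^ (2 * m) - 1) * KK C ≤ D * D :=
      mul_le_mul h4 hK hK0 hDpos.le
    nlinarith
  have h7 : (ω ^ (2 * m) / (2 * (ω ^ m * D))) * (UU C + ((2 : ℝ) ^ (2 * m) - 1) * KK C) ≤
      ω ^ m * D := by
    have h8 : 0 ≤ ω ^ (2 * m) / (2 * (ω ^ m * D)) := by positivity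
    have h9 := mul_le_mul_of_nonneg_left h6 h8
    have h10 : (ω ^ (2 * m) / (2 * (ω ^ m * D))) * (2 * (D : ℝ) ^ 2) = ω ^ m * D := by
      rw [two_mul m, pow_add]
      field_simp
    linarith
  have h8 : θ * KK C ≤ θ * D := mul_le_mul_of_nonneg_left hK hθ0
  have h9 : (ω ^ m * D) * Vr h ≤ (ω ^ m * D) * 1 :=
    mul_le_mul_of_nonneg_left hV (mul_pos hωm hDpos).le
  have h10 : (D : ℝ) * (θ + 2 * ω ^ m) = θ * D + ω ^ m * D * 1 + ω ^ m * D := by ring
  rw [h10]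
  linarith

/-- The asymptotic form: for each `ε > 0` the bound `ε * D` holds for all large `D`. -/
theorem cert_little_o {ε : ℝ} (hε : 0 < ε) :
    ∃ D₀ : ℕ, ∀ D : ℕ, D₀ ≤ D → ∀ (n : ℕ) (h : (Fin n → Bool) → ℝ),
      (∀ x, h x = 1 ∨ h x = -1) →
      (∀ x, ∃ S : Finset (Fin n), S.card ≤ D ∧ ∀ y, (∀ i ∈ S, y i = x i) → h y = h x) →
      L1 h ≤ ε * D := by
  set θ : ℝ := min 1 (ε / 2) with hθ
  have hθ0 : 0 < θ := lt_min one_pos (by linarith)
  have hθ1 : θ ≤ 1 := min_le_left _ _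
  have hθ2 : θ ≤ ε / 2 := min_le_right _ _
  have hθsq : θ ^ 2 ≤ 1 := by nlinarith
  have hω1 : 1 - θ ^ 2 / 2 < 1 := by
    have : 0 < θ ^ 2 := by positivity
    linarith
  have hω0 : 0 ≤ 1 - θ ^ 2 / 2 := by linarith
  obtain ⟨m, hm⟩ := exists_pow_lt_of_lt_one (show 0 < ε / 4 by linarith) hω1
  refine ⟨4 ^ m, fun D hD n h hB hcert => ?_⟩
  have h1 := cert_bound h hB D hcert hθ0.le hθ1 hD
  have hD0 : (0 : ℝ) ≤ D := Nat.cast_nonneg _
  have h2 : θ + 2 * (1 - θ ^ 2 / 2) ^ m ≤ ε := by linarith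
  calc L1 h ≤ (D : ℝ) * (θ + 2 * (1 - θ ^ 2 / 2) ^ m) := h1
    _ ≤ (D : ℝ) * ε := mul_le_mul_of_nonneg_left h2 hD0
    _ = ε * D := mul_comm _ _

end Vale.Agent.Lib.P047C
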