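import Vale.Agent.Lib.P047C.Core

/-!
Averages over a random half restriction, and the variance step of notes/P047C_blueprint.md.
-/

open Finset

namespace Vale.Agent.Lib.P047C

variable {n : ℕ}

/-- The random set given by the point `w` of the cube. -/
def fset (w : Fin n → Bool) : Finset (Fin n) := Finset.univ.filter (fun i => w i = true)

lemma mem_fset {w : Fin n → Bool} {i : Fin n} : i ∈ fset w ↔ w i = true := by
  simp [fset]

/-- Indicator that `i` is not in the random set. -/
noncomputable def uu (i : Fin n) (w : Fin n → Bool) : ℝ := if w i = true then 0 else 1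

/-- Indicator that `i` is in the random set. -/
noncomputable def vv (i : Fin n) (w : Fin n → Bool) : ℝ := if w i = true then 1 else 0

lemma uu_eq (i : Fin n) (w : Fin n → Bool) : uu i w = (1 - sg (w i)) / 2 := by
  unfold uu sg
  cases w i <;> simp

lemma vv_eq (i : Fin n) (w : Fin n → Bool) : vv i w = (1 + sg (w i)) / 2 := by
  unfold vv sg
  cases w i <;> simp

lemma uu_sq (i : Fin n) (w : Fin n → Bool) : uu i w * uu i w = uu i w := by
  unfold uu
  cases w i <;> simp

lemma E_uu (i : Fin n) : E (uu i) = 1 / 2 := by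
  have : uu i = fun w => (1 / 2 : ℝ) + (-(1 / 2) : ℝ) * sg (w i) := by
    funext w; rw [uu_eq]; ring
  rw [this, E_add, E_const_mul, E_sg, E_const]; ring

lemma E_vv (i : Fin n) : E (vv i) = 1 / 2 := by
  have : vv i = fun w => (1 / 2 : ℝ) + (1 / 2 : ℝ) * sg (w i) := by
    funext w; rw [vv_eq]; ring
  rw [this, E_add, E_const_mul, E_sg, E_const]; ring

lemma E_uu_mul {i j : Fin n} (h : i ≠ j) : E (fun w => uu i w * uu j w) = 1 / 4 := by
  have : (fun w => uu i w * uu j w) = fun w =>
      (1 / 4 : ℝ) + ((-(1 / 4) : ℝ) * sg (w i) + ((-(1 / 4) : ℝ) * sg (w j)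
        + (1 / 4 : ℝ) * (sg (w j) * sg (w i)))) := by
    funext w; rw [uu_eq, uu_eq]; ring
  rw [this, E_add, E_add, E_add, E_const_mul, E_const_mul, E_const_mul, E_sg, E_sg, E_sg_mul h,
    E_const]
  ring

lemma card_sdiff_fset (S : Finset (Fin n)) (w : Fin n → Bool) :
    ((S \ fset w).card : ℝ) = ∑ i ∈ S, uu i w := by
  classical
  have : S \ fset w = S.filter (fun i => ¬ w i = true) := by
    ext i; simp [mem_fset]
  rw [this, Finset.card_filter]
  push_cast
  refine Finset.sum_congr rfl fun i _ => ?_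
  unfold uu
  cases w i <;> simp

lemma E_card_sdiff_fset (S : Finset (Fin n)) :
    E (fun w => ((S \ fset w).card : ℝ)) = (S.card : ℝ) / 2 := by
  simp only [card_sdiff_fset]
  rw [E_sum]
  simp only [E_uu]
  simp [div_eq_mul_inv]

lemma E_card_sdiff_fset_sq (S : Finset (Fin n)) :
    E (fun w => ((S \ fset w).card : ℝ) ^ 2) = (S.card : ℝ) ^ 2 / 4 + (S.card : ℝ) / 4 := by
  classical
  simp only [card_sdiff_fset]
  induction S using Finset.induction_on with
  | empty => simp [E_const]
  | insert a T ha ih =>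
    have h1 : (fun w => (∑ i ∈ insert a T, uu i w) ^ 2) = fun w =>
        (∑ i ∈ T, uu i w) ^ 2 + (uu a w + 2 * ∑ i ∈ T, uu a w * uu i w) := by
      funext w
      rw [Finset.sum_insert ha, ← Finset.mul_sum]
      have := uu_sq a w
      nlinarith
    rw [h1, E_add, ih, E_add, E_uu]
    have h2 : E (fun w => 2 * ∑ i ∈ T, uu a w * uu i w) = 2 * ((T.card : ℝ) * (1 / 4)) := by
      rw [E_const_mul, E_sum]
      congr 1
      rw [Finset.sum_congr rfl fun i hi => E_uu_mul (i := a) (j := i) (fun e => ha (e ▸ hi))]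
      simp
    rw [h2, Finset.card_insert_of_notMem ha]
    push_cast
    ring

lemma E_sum_compl_fset (a : Fin n → ℝ) :
    E (fun w => ∑ i ∈ Finset.univ \ fset w, a i) = (∑ i, a i) / 2 := by
  classical
  have h1 : ∀ w : Fin n → Bool, ∑ i ∈ Finset.univ \ fset w, a i = ∑ i, a i * uu i w := by
    intro w
    have : Finset.univ \ fset w = Finset.univ.filter (fun i => ¬ w i = true) := by
      ext i; simp [mem_fset]
    rw [this, Finset.sum_filter]
    refine Finset.sum_congr rfl fun i _ => ?_
    unfold uu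
    cases w i <;> simp
  simp only [h1]
  rw [E_sum]
  simp only [E_const_mul, E_uu]
  rw [Finset.sum_div]
  exact Finset.sum_congr rfl fun i _ => by ring

lemma E_sum_fset (a : Fin n → ℝ) :
    E (fun w => ∑ i ∈ fset w, a i) = (∑ i, a i) / 2 := by
  classical
  have h1 : ∀ w : Fin n → Bool, ∑ i ∈ fset w, a i = ∑ i, a i * vv i w := by
    intro w
    unfold fset
    rw [Finset.sum_filter]
    refine Finset.sum_congr rfl fun i _ => ?_
    unfold vv
    cases w i <;> simp
  simp only [h1]
  rw [E_sum]
  simp only [E_const_mul, E_vv]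
  rw [Finset.sum_div]
  exact Finset.sum_congr rfl fun i _ => by ring

/-- The level-one sum under a random half restriction. -/
lemma E_E_L1 (h : (Fin n → Bool) → ℝ) :
    E (fun w => E (fun z => L1 (res (fset w) z h))) = L1 h / 2 := by
  simp only [E_L1_res]
  exact E_sum_compl_fset (c1 h)

/-- The average size under a random half restriction. -/
lemma E_E_KK (C : (Fin n → Bool) → Finset (Fin n)) :
    E (fun w => E (fun z => KK (resC (fset w) z C))) = KK C / 2 := by
  simp only [E_KK_res]
  rw [E_E_comm]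
  simp only [E_card_sdiff_fset]
  unfold KK
  have : (fun x => ((C x).card : ℝ) / 2) = fun x => ((C x).card : ℝ) * (1 / 2) := by
    funext x; ring
  rw [this, E_mul_const]
  ring

/-- The average squared size under a random half restriction. -/
lemma E_E_UU (C : (Fin n → Bool) → Finset (Fin n)) :
    E (fun w => E (fun z => UU (resC (fset w) z C))) = UU C / 4 + KK C / 4 := by
  simp only [E_UU_res]
  rw [E_E_comm]
  simp only [E_card_sdiff_fset_sq]
  unfold KK UU
  have : (fun x => ((C x).card : ℝ) ^ 2 / 4 + ((C x).card : ℝ) / 4) =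
      fun x => ((C x).card : ℝ) ^ 2 * (1 / 4) + ((C x).card : ℝ) * (1 / 4) := by
    funext x; ring
  rw [this, E_add, E_mul_const, E_mul_const]
  ring

/-- The variance under a random half restriction. -/
lemma E_E_Vr (h : (Fin n → Bool) → ℝ) :
    E (fun w => E (fun z => Vr (res (fset w) z h))) ≤ Vr h - (∑ i, (c1 h i) ^ 2) / 2 := by
  have h1 : ∀ w : Fin n → Bool, E (fun z => Vr (res (fset w) z h)) ≤
      Vr h - ∑ i ∈ fset w, (c1 h i) ^ 2 := fun w => E_Vr_res (fset w) h
  have h2 := E_mono h1
  rw [E_sub, E_const, E_sum_fset] at h2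
  exact h2

/-- **The variance step.**  If the claim at level `j` holds for all schemes, and the level-one
weight of `h` dominates `θ ^ 2` times its variance, then the claim at level `j + 1` holds for
`h`. -/
theorem step_b {θ ω μ : ℝ} {j : ℕ} (hω : ω = 1 - θ ^ 2 / 2) (hωpos : 0 < ω) (hμ : 0 < μ)
    {h : (Fin n → Bool) → ℝ} {C : (Fin n → Bool) → Finset (Fin n)} {A : Finset (Fin n)}
    (hbool : ∀ x, h x = 1 ∨ h x = -1) (hS : Scheme A h C)
    (IH : ∀ (A' : Finset (Fin n)) (h' : (Fin n → Bool) → ℝ)
      (C' : (Fin n → Bool) → Finset (Fin n)), (∀ x, h' x = 1 ∨ h' x = -1) → Scheme A' h' C' →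
      ∀ μ' : ℝ, 0 < μ' → L1 h' ≤ θ * KK C' + μ' * Vr h' +
        ω ^ j / (2 * μ') * (UU C' + (2 ^ j - 1) * KK C'))
    (hW : θ ^ 2 * Vr h ≤ ∑ i, (c1 h i) ^ 2) :
    L1 h ≤ θ * KK C + μ * Vr h + ω ^ (j + 1) / (2 * μ) * (UU C + (2 ^ (j + 1) - 1) * KK C) := by
  set μ' : ℝ := μ / (2 * ω) with hμ'
  have hμ'pos : 0 < μ' := by positivity
  set b : ℝ := ω ^ j / (2 * μ') with hb
  have hpt : ∀ w z : Fin n → Bool,
      L1 (res (fset w) z h) ≤ θ * KK (resC (fset w) z C) + μ' * Vr (res (fset w) z h) +
        b * (UU (resC (fset w) z C) + (2 ^ j - 1) * KK (resC (fset w) z C)) := by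
    intro w z
    exact IH _ _ _ (fun x => hbool _) (hS.res (fset w) z) μ' hμ'pos
  -- average over `z`, then over `w`
  have hav : E (fun w => E (fun z => L1 (res (fset w) z h))) ≤
      E (fun w => E (fun z => θ * KK (resC (fset w) z C) + μ' * Vr (res (fset w) z h) +
        b * (UU (resC (fset w) z C) + (2 ^ j - 1) * KK (resC (fset w) z C)))) :=
    E_mono fun w => E_mono fun z => hpt w z
  have hexp : E (fun w => E (fun z => θ * KK (resC (fset w) z C) + μ' * Vr (res (fset w) z h) +
        b * (UU (resC (fset w) z C) + (2 ^ j - 1) * KK (resC (fset w) z C)))) =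
      θ * E (fun w => E (fun z => KK (resC (fset w) z C))) +
      μ' * E (fun w => E (fun z => Vr (res (fset w) z h))) +
      b * (E (fun w => E (fun z => UU (resC (fset w) z C))) +
        (2 ^ j - 1) * E (fun w => E (fun z => KK (resC (fset w) z C)))) := by
    have e1 : ∀ w : Fin n → Bool, E (fun z => θ * KK (resC (fset w) z C) +
        μ' * Vr (res (fset w) z h) +
        b * (UU (resC (fset w) z C) + (2 ^ j - 1) * KK (resC (fset w) z C))) =
        θ * E (fun z => KK (resC (fset w) z C)) + μ' * E (fun z => Vr (res (fset w) z h)) +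
        b * (E (fun z => UU (resC (fset w) z C)) +
          (2 ^ j - 1) * E (fun z => KK (resC (fset w) z C))) := by
      intro w
      rw [E_add, E_add, E_const_mul, E_const_mul, E_const_mul, E_add, E_const_mul]
    simp only [e1]
    rw [E_add, E_add, E_const_mul, E_const_mul, E_const_mul, E_add, E_const_mul]
  rw [hexp, E_E_L1, E_E_KK, E_E_UU] at hav
  have hV := E_E_Vr h
  have hV2 : E (fun w => E (fun z => Vr (res (fset w) z h))) ≤ ω * Vr h := by
    rw [hω]; nlinarith
  have hV3 := mul_le_mul_of_nonneg_left hV2 hμ'pos.le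
  -- algebra
  have hμ2 : μ' * (ω * Vr h) = μ * Vr h / 2 := by
    rw [hμ']; field_simp
  have hb2 : b = ω ^ (j + 1) / μ := by
    rw [hb, hμ', pow_succ]; field_simp
  rw [hμ2] at hV3
  have hfin : ω ^ (j + 1) / (2 * μ) * (UU C + (2 ^ (j + 1) - 1) * KK C) =
      2 * (b * (UU C / 4 + KK C / 4 + (2 ^ j - 1) * (KK C / 2))) := by
    rw [hb2, pow_succ (2 : ℝ) j]; field_simp; ring
  rw [hfin]
  linarith

end Vale.Agent.Lib.P047C
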