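import Vale.Agent.Lib.P047C.Main
import Vale.Agent.Lib.P047C.MonoCert

/-!
The explicit rate, in the language of Fourier coefficients (notes/P047C_blueprint.md).
-/

open Finset

namespace Vale.Agent.Lib.P047C

variable {n : ℕ}

lemma L1_eq (f : (Fin n → Bool) → ℝ) : ∑ i, Vale.Agent.Lib.P047h.fourierCoeff f {i} = L1 f := by
  unfold L1 c1 E Vale.Agent.Lib.P047h.fourierCoeff
  refine Finset.sum_congr rfl fun i _ => ?_
  congr 1
  refine Finset.sum_congr rfl fun x _ => ?_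
  simp [Vale.Agent.Lib.P047h.chi, Vale.Agent.Lib.P047h.bitSign, sg]

lemma two_log_le (m : ℕ) (hm : 1 ≤ m) : 2 * Real.log m ≤ m := by
  have hm0 : (0 : ℝ) < m := by exact_mod_cast hm
  have h1 : Real.log ((m : ℝ) / 2) ≤ (m : ℝ) / 2 - 1 :=
    Real.log_le_sub_one_of_pos (by positivity)
  rw [Real.log_div hm0.ne' (by norm_num)] at h1
  have h2 := Real.log_two_lt_d9
  norm_num at h2
  linarith

/-- The choice of `θ` that balances the two terms of the bound. -/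
lemma rate_choice {m : ℕ} (hm : 1 ≤ m) :
    0 ≤ Real.sqrt (2 * Real.log m / m) ∧ Real.sqrt (2 * Real.log m / m) ≤ 1 ∧
      (1 - Real.sqrt (2 * Real.log m / m) ^ 2 / 2) ^ m ≤ 1 / (m : ℝ) := by
  have hm0 : (0 : ℝ) < m := by exact_mod_cast hm
  have hlog : 0 ≤ Real.log m := Real.log_natCast_nonneg m
  set t : ℝ := 2 * Real.log m / m with ht
  have ht0 : 0 ≤ t := by positivity
  have ht1 : t ≤ 1 := by
    rw [ht, div_le_one hm0]
    exact two_log_le m hm
  refine ⟨Real.sqrt_nonneg _, ?_, ?_⟩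
  · rw [← Real.sqrt_one]
    exact Real.sqrt_le_sqrt ht1
  · rw [Real.sq_sqrt ht0]
    have h1 : 1 - t / 2 ≤ Real.exp (-(t / 2)) := Real.one_sub_le_exp_neg _
    have h2 : 0 ≤ 1 - t / 2 := by linarith
    have h3 := pow_le_pow_left₀ h2 h1 m
    have h4 : Real.exp (-(t / 2)) ^ m = 1 / (m : ℝ) := by
      rw [← Real.exp_nat_mul]
      have h5 : (m : ℝ) * (-(t / 2)) = - Real.log m := by
        rw [ht]; field_simp
      rw [h5, Real.exp_neg, Real.exp_log hm0, one_div]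
    rwa [h4] at h3

/-- The explicit rate for certificate complexity. -/
theorem cert_rate (f : (Fin n → Bool) → ℝ) (hB : ∀ x, f x = 1 ∨ f x = -1) (D : ℕ)
    (hcert : ∀ x, ∃ S : Finset (Fin n), S.card ≤ D ∧ ∀ y, (∀ i ∈ S, y i = x i) → f y = f x)
    {m : ℕ} (hm : 1 ≤ m) (hmD : 4 ^ m ≤ D) :
    ∑ i, Vale.Agent.Lib.P047h.fourierCoeff f {i} ≤ (D : ℝ) * (Real.sqrt (2 * Real.log m / m) + 2 / m) := by
  obtain ⟨h0, h1, h2⟩ := rate_choice hm
  rw [L1_eq]
  have h3 := cert_bound f hB D hcert h0 h1 hmD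
  have hD0 : (0 : ℝ) ≤ D := Nat.cast_nonneg _
  refine h3.trans (mul_le_mul_of_nonneg_left ?_ hD0)
  have h4 : (2 : ℝ) / m = 2 * (1 / (m : ℝ)) := by ring
  rw [h4]
  linarith

end Vale.Agent.Lib.P047C
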